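import Claimed.Agent.R282.S2AB.PL.Basic

/-!
# Row 282, package PL: THE direct folding lemma (Lemma 2.6 / first half of Lemma 5.2)

`pl_fold_raw`: a real schedule for dominant `lam`, `xi` and a shape with dominant (NOT nec. regular)
increments folds to a dominant Bruhat-decreasing path with the same data.  Every new switch sits on
its wall (`gap = 0`) or has the coefficient of an original switch.
Corollaries: `sched_fold_dom` (K11', `P = True`), `col_fold_raw` (`P` = integrality).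

No perturbation, no limit, no event times.  Unfolded state `S = (w, c)`, folded state `S' = (u, c')`,
`g ∈ W`.  INVARIANT `FoldInv`: `c' = g c`, `u v = g (w v)` for all increments `v` of the shape; hence
`S'.pos t = g (S.pos t)` for ALL `t`.
* switch `(t, β)` of the schedule, `G = gap`, `P = total`:
  `G = 0`: `g := g s_β`, no folded switch.          [`pl_inv_zero_gap`]
  `P = 0`: nothing changes (`s_β w = w` on the increments, `m = 0`).   [`pl_inv_zero_total`]
  `G > 0`, `P > 0`: folded switch `(t, g β)`, downward, same coefficient.   [`pl_inv_switch`]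
* exit from the chamber before the next switch: folded switch `(τ, α)` on the wall of `α`, `g := s_α g`.
  [`pl_exit`, `pl_inv_exit`]
* termination: `#remaining switches + plDef u` decreases.     [`pl_fold_aux`, glue PROVED here]

Leaves: L-PL-F1 = section `Inv` (algebra of the invariant), L-PL-F2 = `pl_exit`,
L-PL-F3 = section `Tools`.
-/

set_option autoImplicit false

namespace Claimed.Agent.R282

variable {n : ℕ}

/-- every switch satisfies `P coeff` or sits on its wall -/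
def SwLabel (P : ℝ → Prop) (θ : Shape n) : SwState n → List (ℝ × RootD n) → Prop
  | _, [] => True
  | S, p :: l => (P (S.coeff θ p.1 p.2) ∨ S.gap θ p.1 p.2 = 0) ∧
      SwLabel P θ (S.step θ p.1 p.2) l

/-- all switch coefficients satisfy `P` -/
def SwAllC (P : ℝ → Prop) (θ : Shape n) : SwState n → List (ℝ × RootD n) → Prop
  | _, [] => True
  | S, p :: l => P (S.coeff θ p.1 p.2) ∧ SwAllC P θ (S.step θ p.1 p.2) l

/-- the folding invariant between the unfolded state `S` and the folded state `S'` -/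
structure FoldInv (θ : Shape n) (S S' : SwState n) (g : WD n) : Prop where
  frS : IsFrame S.frame
  frS' : IsFrame S'.frame
  c_eq : S'.c = g.act S.c
  fr_eq : ∀ v ∈ θ, S'.frame v = g.act (S.frame v)

section Inv

/-- PLAN: `θ.map S'.frame = θ.map (g.act ∘ S.frame)` (`List.map_congr_left`), then `sc_val_map` twice. -/
theorem FoldInv.frame_val {θ : Shape n} {S S' : SwState n} {g : WD n} (h : FoldInv θ S S' g)
    (t : ℝ) : S'.frame (θ.val t) = g.act (S.frame (θ.val t)) := by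
  have l1 : IsLinearMap ℝ S'.frame := sc_isFrame_linear _ h.frS'
  have l2 : IsLinearMap ℝ (fun x => g.act (S.frame x)) :=
    sc_isFrame_linear _ (pl_isFrame_comp _ _ ⟨g, rfl⟩ h.frS)
  have hm : θ.map S'.frame = θ.map (fun x => g.act (S.frame x)) := List.map_congr_left h.fr_eq
  rw [← sc_val_map θ _ l1, hm, sc_val_map θ _ l2]

theorem FoldInv.frame_sum {θ : Shape n} {S S' : SwState n} {g : WD n} (h : FoldInv θ S S' g) :
    S'.frame θ.sum = g.act (S.frame θ.sum) := by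
  have l1 : IsLinearMap ℝ S'.frame := sc_isFrame_linear _ h.frS'
  have l2 : IsLinearMap ℝ (fun x => g.act (S.frame x)) :=
    sc_isFrame_linear _ (pl_isFrame_comp _ _ ⟨g, rfl⟩ h.frS)
  have hm : θ.map S'.frame = θ.map (fun x => g.act (S.frame x)) := List.map_congr_left h.fr_eq
  rw [← sc_sum_map θ _ l1, hm, sc_sum_map θ _ l2]

theorem FoldInv.pos_eq {θ : Shape n} {S S' : SwState n} {g : WD n} (h : FoldInv θ S S' g)
    (t : ℝ) : S'.pos θ t = g.act (S.pos θ t) := by
  unfold SwState.pos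
  rw [h.c_eq, h.frame_val, (sc_WD_act_isLinear g).map_add]

/-- `G = 0`: take `g' = g s_β`.  `s_β (c - m β) = c - (c·β - m) β = c - G β = c`. -/
theorem pl_inv_zero_gap (θ : Shape n) (S S' : SwState n) (g : WD n) (h : FoldInv θ S S' g)
    (t : ℝ) (β : RootD n) (h0 : S.gap θ t β = 0) :
    ∃ g' : WD n, FoldInv θ (S.step θ t β) S' g' := by
  obtain ⟨r, hr⟩ := sc_WD_refl β
  obtain ⟨g', hg'⟩ := sc_WD_mul g r
  refine ⟨g', sc_isFrame_refl S.frame h.frS β, h.frS', ?_, fun v hv => ?_⟩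
  · have h1 := sc_gap_eq θ S t β
    rw [h0] at h1
    have h2 : dot S.c β.vec = S.coeff θ t β := by linarith
    have h3 : refl β (S.c - S.coeff θ t β • β.vec) = S.c := by
      unfold refl
      rw [sc_dot_sub_left, sc_dot_smul_left, sc_vec_dot_self, h2]
      module
    show S'.c = g'.act (S.c - S.coeff θ t β • β.vec)
    rw [hg', hr, h3, h.c_eq]
  · show S'.frame v = g'.act (refl β (S.frame v))
    rw [hg', hr, sc_refl_refl, h.fr_eq v hv]

/-- total `= 0`: `β · w v = 0` for all increments (`sc_frame_root`, `sc_root_zero_of_sum`), so `m = 0` and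
`s_β w v = w v`. -/
theorem pl_inv_zero_total (θ : Shape n) (hθ : ∀ v ∈ θ, Dom v) (S S' : SwState n) (g : WD n)
    (h : FoldInv θ S S' g) (t : ℝ) (β : RootD n) (h0 : S.total θ β = 0) :
    FoldInv θ (S.step θ t β) S' g := by
  obtain ⟨γ, hγ⟩ := sc_frame_root S.frame h.frS β
  have h1 : dot γ.vec θ.sum = 0 := by
    have : S.total θ β = - dot β.vec (S.frame θ.sum) := rfl
    rw [← hγ]; linarith
  have h2 := sc_root_zero_of_sum θ hθ γ h1
  refine ⟨sc_isFrame_refl S.frame h.frS β, h.frS', ?_, fun v hv => ?_⟩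
  · show S'.c = g.act (S.c - S.coeff θ t β • β.vec)
    rw [sc_coeff_of_total_zero θ hθ S h.frS β h0 t, zero_smul, sub_zero, h.c_eq]
  · show S'.frame v = g.act (refl β (S.frame v))
    rw [sc_refl_of_orth β _ (by rw [sc_dot_comm, hγ]; exact h2 v hv), h.fr_eq v hv]

/-- `G > 0`, total `> 0`: `γ = β.map g.toWB`.  `γ > 0` by `pl_pos_of_dom` (`x · γ = G`), `u⁻¹ γ < 0` by
`pl_frame_neg_of` with `d = θ.sum` (`dot (u μ) γ = dot (w μ) β = - total`). -/
theorem pl_inv_switch (θ : Shape n) (hθ : ∀ v ∈ θ, Dom v) (S S' : SwState n) (g : WD n)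
    (h : FoldInv θ S S' g) (t : ℝ) (β : RootD n) (hG : 0 < S.gap θ t β) (hP : 0 < S.total θ β)
    (hdom : Dom (S'.pos θ t)) :
    ∃ γ : RootD n, 0 < dot (rhoV n) γ.vec ∧ dot (S'.frame (rhoV n)) γ.vec < 0 ∧
      S'.coeff θ t γ = S.coeff θ t β ∧ FoldInv θ (S.step θ t β) (S'.step θ t γ) g := by
  have hv : (β.map g.toWB).vec = g.act β.vec := by rw [sc_map_vec, sc_toWB_act]
  refine ⟨β.map g.toWB, ?_, ?_, ?_, sc_isFrame_refl S.frame h.frS β,
    sc_isFrame_refl S'.frame h.frS' _, ?_, fun v hv' => ?_⟩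
  · refine pl_pos_of_dom _ hdom _ ?_
    rw [hv, h.pos_eq, sc_dot_WD_act]
    exact hG
  · refine pl_frame_neg_of S'.frame h.frS' _ θ.sum (sc_dom_sum θ hθ) ?_
    rw [hv, h.frame_sum, sc_dot_WD_act, sc_dot_comm]
    have : S.total θ β = - dot β.vec (S.frame θ.sum) := rfl
    linarith
  · show - dot (β.map g.toWB).vec (S'.frame (θ.val t)) = - dot β.vec (S.frame (θ.val t))
    rw [hv, h.frame_val, sc_dot_WD_act]
  · have hc : S'.coeff θ t (β.map g.toWB) = S.coeff θ t β := by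
      show - dot (β.map g.toWB).vec (S'.frame (θ.val t)) = - dot β.vec (S.frame (θ.val t))
      rw [hv, h.frame_val, sc_dot_WD_act]
    show S'.c - S'.coeff θ t (β.map g.toWB) • (β.map g.toWB).vec
      = g.act (S.c - S.coeff θ t β • β.vec)
    rw [hc, hv, (sc_WD_act_isLinear g).map_sub, (sc_WD_act_isLinear g).map_smul, h.c_eq]
  · show refl (β.map g.toWB) (S'.frame v) = g.act (refl β (S.frame v))
    rw [h.fr_eq v hv']
    exact sc_refl_map g.toWB β _

/-- a folded switch on its wall: `g' = s_α g`. -/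
theorem pl_inv_exit (θ : Shape n) (S S' : SwState n) (g : WD n) (h : FoldInv θ S S' g)
    (t : ℝ) (α : RootD n) (h0 : S'.gap θ t α = 0) :
    ∃ g' : WD n, FoldInv θ S (S'.step θ t α) g' := by
  obtain ⟨r, hr⟩ := sc_WD_refl α
  obtain ⟨g', hg'⟩ := sc_WD_mul r g
  refine ⟨g', h.frS, sc_isFrame_refl S'.frame h.frS' α, ?_, fun v hv => ?_⟩
  · have h1 := sc_gap_eq θ S' t α
    rw [h0] at h1
    have h2 : S'.coeff θ t α = dot S'.c α.vec := by linarith
    show S'.c - S'.coeff θ t α • α.vec = g'.act S.c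
    rw [hg', hr, ← h.c_eq, h2]
    rfl
  · show refl α (S'.frame v) = g'.act (S.frame v)
    rw [hg', hr, h.fr_eq v hv]

end Inv

/-- EXIT LEMMA.  PLAN (no supremum): `φ_α(s) = dot (S'.pos θ s) α.vec = dot c' α + dot (u (η s)) α` is continuous, and
monotone or antitone according to the sign of `dot (u rho) α.vec` (`pl_frame_nonneg/nonpos` applied to
`η t - η s`, `pl_val_sub_dom`, linearity of `u`).  Let `A` = the finite set (`sc_finite_RootD`) of positive roots `α` with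
`φ_α(s) < 0` for some `s ∈ [a, b]`; `A ≠ ∅` by `pl_dom_iff`.  For `α ∈ A`: `φ_α(a) ≥ 0`, so `φ_α` is not monotone, so
`dot (u rho) α.vec < 0` and `φ_α` is antitone; IVT gives `τ_α ∈ [a, b]` with `φ_α(τ_α) = 0`, and `φ_α ≥ 0` on `[a, τ_α]`.
Take `α ∈ A` with `τ_α` minimal. -/
theorem pl_exit (θ : Shape n) (hθ : ∀ v ∈ θ, Dom v) (S' : SwState n) (hS' : IsFrame S'.frame)
    (a b : ℝ) (hab : a ≤ b) (ha : Dom (S'.pos θ a))
    (hn : ¬ ∀ t, a ≤ t → t ≤ b → Dom (S'.pos θ t)) :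
    ∃ (τ : ℝ) (α : RootD n), a ≤ τ ∧ τ ≤ b ∧ (∀ t, a ≤ t → t ≤ τ → Dom (S'.pos θ t)) ∧
      0 < dot (rhoV n) α.vec ∧ dot (S'.frame (rhoV n)) α.vec < 0 ∧ S'.gap θ τ α = 0 := by
  classical
  have hlin := sc_isFrame_linear _ hS'
  have hcont : ∀ α : RootD n, Continuous fun s => dot (S'.pos θ s) α.vec := fun α =>
    (continuous_dot_left α.vec).comp
      (continuous_const.add ((pl_frame_continuous _ hS').comp (sc_val_continuous θ)))
  have hdiff : ∀ (α : RootD n) (s t : ℝ), dot (S'.pos θ t) α.vec - dot (S'.pos θ s) α.vec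
      = dot (S'.frame (θ.val t - θ.val s)) α.vec := by
    intro α s t
    unfold SwState.pos
    rw [hlin.map_sub, sc_dot_add_left, sc_dot_add_left, sc_dot_sub_left]
    ring
  have hanti : ∀ α : RootD n, dot (S'.frame (rhoV n)) α.vec < 0 → ∀ s t, s ≤ t →
      dot (S'.pos θ t) α.vec ≤ dot (S'.pos θ s) α.vec := by
    intro α hα s t hst
    have := pl_frame_nonpos _ hS' α hα _ (pl_val_sub_dom θ hθ s t hst)
    rw [← hdiff] at this
    linarith
  have hmono : ∀ α : RootD n, 0 < dot (S'.frame (rhoV n)) α.vec → ∀ s t, s ≤ t →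
      dot (S'.pos θ s) α.vec ≤ dot (S'.pos θ t) α.vec := by
    intro α hα s t hst
    have := pl_frame_nonneg _ hS' α hα _ (pl_val_sub_dom θ hθ s t hst)
    rw [← hdiff] at this
    linarith
  set A : Set (RootD n) := {α | 0 < dot (rhoV n) α.vec ∧
    ∃ s, a ≤ s ∧ s ≤ b ∧ dot (S'.pos θ s) α.vec < 0} with hA
  have key : ∀ α ∈ A, dot (S'.frame (rhoV n)) α.vec < 0 ∧
      ∃ τ, a ≤ τ ∧ τ ≤ b ∧ dot (S'.pos θ τ) α.vec = 0 := by
    rintro α ⟨hpos, s, has, hsb, hneg⟩
    have h0 : 0 ≤ dot (S'.pos θ a) α.vec := (pl_dom_iff _).1 ha α hpos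
    have hlt : dot (S'.frame (rhoV n)) α.vec < 0 := by
      rcases lt_or_gt_of_ne (pl_frame_rho_ne _ hS' α) with h | h
      · exact h
      · exact absurd (hmono α h a s has) (by linarith)
    refine ⟨hlt, ?_⟩
    obtain ⟨τ, hτ, hτ0⟩ := intermediate_value_Icc' has (hcont α).continuousOn
      (show (0 : ℝ) ∈ Set.Icc _ _ from ⟨hneg.le, h0⟩)
    exact ⟨τ, hτ.1, hτ.2.trans hsb, hτ0⟩
  have key' : ∀ α : RootD n, ∃ τ, α ∈ A → a ≤ τ ∧ τ ≤ b ∧ dot (S'.pos θ τ) α.vec = 0 := by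
    intro α
    by_cases hα : α ∈ A
    · obtain ⟨τ, h⟩ := (key α hα).2
      exact ⟨τ, fun _ => h⟩
    · exact ⟨0, fun h => absurd h hα⟩
  choose τ hτ using key'
  have hne : A.Nonempty := by
    push Not at hn
    obtain ⟨s, has, hsb, hs⟩ := hn
    rw [pl_dom_iff] at hs
    push Not at hs
    obtain ⟨α, hα, hneg⟩ := hs
    exact ⟨α, hα, s, has, hsb, hneg⟩
  have := sc_finite_RootD (n := n)
  obtain ⟨α, hαA, hmin⟩ := Set.exists_min_image A τ (Set.toFinite A) hne
  obtain ⟨h1, h2, h3⟩ := hτ α hαA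
  refine ⟨τ α, α, h1, h2, fun t hat htτ => ?_, hαA.1, (key α hαA).1, h3⟩
  rw [pl_dom_iff]
  intro β hβ
  by_cases hβA : β ∈ A
  · have := hanti β (key β hβA).1 t (τ β) (htτ.trans (hmin β hβA))
    rw [(hτ β hβA).2.2] at this
    exact this
  · by_contra hlt
    exact hβA ⟨hβ, t, hat, htτ.trans h2, not_le.1 hlt⟩

section Tools

/-- extend the first interval of `SwInDom` to the left -/
theorem pl_inDom_extend (θ : Shape n) (a b : ℝ) (S : SwState n) (l : List (ℝ × RootD n))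
    (h1 : ∀ t, a ≤ t → t ≤ b → Dom (S.pos θ t)) (h2 : SwInDom Ty.D θ b S l) :
    SwInDom Ty.D θ a S l := by
  cases l with
  | nil =>
    intro t h3 h4
    rcases le_total t b with h5 | h5
    · exact h1 t h3 h5
    · exact h2 t h5 h4
  | cons p l =>
    refine ⟨fun t h3 h4 => ?_, h2.2⟩
    rcases le_total t b with h5 | h5
    · exact h1 t h3 h5
    · exact h2.1 t h5 h4

/-- the end of a dominant path is dominant -/
theorem pl_inDom_end (θ : Shape n) (a : ℝ) (S : SwState n) (l : List (ℝ × RootD n))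
    (ha : a ≤ (θ.length : ℝ)) (ht : ∀ p ∈ l, a ≤ p.1 ∧ p.1 ≤ (θ.length : ℝ))
    (hs : l.Pairwise (fun p q => p.1 ≤ q.1)) (h : SwInDom Ty.D θ a S l) :
    Dom ((runSw θ S l).pos θ θ.length) := by
  induction l generalizing a S with
  | nil => exact h _ ha le_rfl
  | cons p l ih =>
    obtain ⟨hpl, hs'⟩ := List.pairwise_cons.1 hs
    exact ih p.1 (S.step θ p.1 p.2) (ht p List.mem_cons_self).2
      (fun q hq => ⟨hpl q hq, (ht q (List.mem_cons_of_mem _ hq)).2⟩) hs' h.2

theorem pl_allC_true (θ : Shape n) (S : SwState n) (l : List (ℝ × RootD n)) :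
    SwAllC (fun _ => True) θ S l := by
  induction l generalizing S with
  | nil => trivial
  | cons p l ih => exact ⟨trivial, ih _⟩

theorem pl_allC_integral (θ : Shape n) (S : SwState n) (l : List (ℝ × RootD n)) :
    SwAllC (fun m => ∃ z : ℤ, m = z) θ S l ↔ SwIntegral θ S l := by
  induction l generalizing S with
  | nil => exact Iff.rfl
  | cons p l ih => exact and_congr Iff.rfl (ih _)

theorem pl_pos_zero (θ : Shape n) (w : WD n) (lam : Vec n) :
    (⟨w.act, lam⟩ : SwState n).pos θ 0 = lam := by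
  show lam + w.act (θ.val 0) = lam
  rw [sc_val_zero, (sc_WD_act_isLinear w).map_zero, add_zero]

end Tools

/-- the main induction -/
theorem pl_fold_aux (P : ℝ → Prop) (θ : Shape n) (hθ : ∀ v ∈ θ, Dom v) (N : ℕ) :
    ∀ (a : ℝ) (S S' : SwState n) (g : WD n) (l : List (ℝ × RootD n)),
      l.length + plDef S'.frame ≤ N → a ≤ (θ.length : ℝ) → FoldInv θ S S' g →
      (∀ p ∈ l, a ≤ p.1 ∧ p.1 ≤ (θ.length : ℝ)) → l.Pairwise (fun p q => p.1 ≤ q.1) →
      SwValid θ S l → SwAllC P θ S l → Dom (S'.pos θ a) →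
      ∃ (l' : List (ℝ × RootD n)) (g' : WD n),
        (∀ p ∈ l', a ≤ p.1 ∧ p.1 ≤ (θ.length : ℝ)) ∧ l'.Pairwise (fun p q => p.1 ≤ q.1) ∧
        SwDown θ S' l' ∧ SwInDom Ty.D θ a S' l' ∧ SwLabel P θ S' l' ∧
        FoldInv θ (runSw θ S l) (runSw θ S' l') g' := by
  induction N using Nat.strong_induction_on with
  | _ N ih =>
  intro a S S' g l hN haT hinv htimes hsorted hvalid hP hdom
  -- the exit step, common to both cases
  have exit : ∀ b : ℝ, a ≤ b → b ≤ (θ.length : ℝ) → (∀ p ∈ l, b ≤ p.1) →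
      (¬ ∀ t, a ≤ t → t ≤ b → Dom (S'.pos θ t)) →
      ∃ (l' : List (ℝ × RootD n)) (g' : WD n),
        (∀ p ∈ l', a ≤ p.1 ∧ p.1 ≤ (θ.length : ℝ)) ∧ l'.Pairwise (fun p q => p.1 ≤ q.1) ∧
        SwDown θ S' l' ∧ SwInDom Ty.D θ a S' l' ∧ SwLabel P θ S' l' ∧
        FoldInv θ (runSw θ S l) (runSw θ S' l') g' := by
    intro b hab hbT hbl hall
    obtain ⟨τ, α, h1, h2, h3, h4, h5, h6⟩ := pl_exit θ hθ S' hinv.frS' a b hab hdom hall
    obtain ⟨g1, hinv1⟩ := pl_inv_exit θ S S' g hinv τ α h6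
    have hlt : plDef (S'.step θ τ α).frame < plDef S'.frame :=
      pl_def_step_lt _ hinv.frS' α h4 h5
    obtain ⟨l', g', t1, t2, t3, t4, t5, t6⟩ :=
      ih (l.length + plDef (S'.step θ τ α).frame) (by omega) τ S (S'.step θ τ α) g1 l le_rfl
        (h2.trans hbT) hinv1 (fun p hp => ⟨h2.trans (hbl p hp), (htimes p hp).2⟩) hsorted hvalid hP
        (by rw [sc_pos_step]; exact h3 τ h1 le_rfl)
    refine ⟨(τ, α) :: l', g', ?_, ?_, ⟨h4, h5, t3⟩, ⟨h3, t4⟩, ⟨Or.inr h6, t5⟩, t6⟩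
    · intro p hp
      rcases List.mem_cons.1 hp with rfl | hp
      · exact ⟨h1, h2.trans hbT⟩
      · exact ⟨h1.trans (t1 p hp).1, (t1 p hp).2⟩
    · exact List.pairwise_cons.2 ⟨fun q hq => (t1 q hq).1, t2⟩
  cases l with
  | nil =>
    by_cases hall : ∀ t, a ≤ t → t ≤ (θ.length : ℝ) → Dom (S'.pos θ t)
    · exact ⟨[], g, by simp, List.Pairwise.nil, trivial, hall, trivial, hinv⟩
    · exact exit _ haT le_rfl (by simp) hall
  | cons p l =>
    have hap : a ≤ p.1 := (htimes p List.mem_cons_self).1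
    have hpT : p.1 ≤ (θ.length : ℝ) := (htimes p List.mem_cons_self).2
    obtain ⟨hpl, hsorted'⟩ := List.pairwise_cons.1 hsorted
    by_cases hall : ∀ t, a ≤ t → t ≤ p.1 → Dom (S'.pos θ t)
    · obtain ⟨hG, hTot, hvalid'⟩ := hvalid
      obtain ⟨hPp, hP'⟩ := hP
      have htimes' : ∀ q ∈ l, p.1 ≤ q.1 ∧ q.1 ≤ (θ.length : ℝ) := fun q hq =>
        ⟨hpl q hq, (htimes q (List.mem_cons_of_mem _ hq)).2⟩
      have hlen : (p :: l).length = l.length + 1 := List.length_cons
      have nofold : ∀ g1 : WD n, FoldInv θ (S.step θ p.1 p.2) S' g1 →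
          ∃ (l' : List (ℝ × RootD n)) (g' : WD n),
          (∀ p ∈ l', a ≤ p.1 ∧ p.1 ≤ (θ.length : ℝ)) ∧ l'.Pairwise (fun p q => p.1 ≤ q.1) ∧
          SwDown θ S' l' ∧ SwInDom Ty.D θ a S' l' ∧ SwLabel P θ S' l' ∧
          FoldInv θ (runSw θ S (p :: l)) (runSw θ S' l') g' := by
        intro g1 hinv1
        obtain ⟨l', g', t1, t2, t3, t4, t5, t6⟩ :=
          ih (l.length + plDef S'.frame) (by omega) p.1 (S.step θ p.1 p.2) S' g1 l le_rfl hpT hinv1
            htimes' hsorted' hvalid' hP' (hall p.1 hap le_rfl)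
        exact ⟨l', g', fun q hq => ⟨hap.trans (t1 q hq).1, (t1 q hq).2⟩, t2, t3,
          pl_inDom_extend θ a p.1 S' l' hall t4, t5, t6⟩
      rcases hG.eq_or_lt with hG0 | hGpos
      · obtain ⟨g1, hinv1⟩ := pl_inv_zero_gap θ S S' g hinv p.1 p.2 hG0.symm
        exact nofold g1 hinv1
      · rcases hTot.eq_or_lt with hT0 | hTpos
        · exact nofold g (pl_inv_zero_total θ hθ S S' g hinv p.1 p.2 hT0.symm)
        · obtain ⟨γ, c1, c2, c3, hinv1⟩ :=
            pl_inv_switch θ hθ S S' g hinv p.1 p.2 hGpos hTpos (hall p.1 hap le_rfl)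
          have hlt : plDef (S'.step θ p.1 γ).frame < plDef S'.frame :=
            pl_def_step_lt _ hinv.frS' γ c1 c2
          obtain ⟨l', g', t1, t2, t3, t4, t5, t6⟩ :=
            ih (l.length + plDef (S'.step θ p.1 γ).frame) (by omega) p.1 (S.step θ p.1 p.2)
              (S'.step θ p.1 γ) g l le_rfl hpT hinv1 htimes' hsorted' hvalid' hP'
              (by rw [sc_pos_step]; exact hall p.1 hap le_rfl)
          refine ⟨(p.1, γ) :: l', g', ?_, ?_, ⟨c1, c2, t3⟩, ⟨hall, t4⟩,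
            ⟨Or.inl (by rw [c3]; exact hPp), t5⟩, t6⟩
          · intro q hq
            rcases List.mem_cons.1 hq with rfl | hq
            · exact ⟨hap, hpT⟩
            · exact ⟨hap.trans (t1 q hq).1, (t1 q hq).2⟩
          · exact List.pairwise_cons.2 ⟨fun q hq => (t1 q hq).1, t2⟩
    · refine exit p.1 hap hpT ?_ hall
      intro q hq
      rcases List.mem_cons.1 hq with rfl | hq
      · exact le_rfl
      · exact hpl q hq

/-- **THE RAW FOLDING LEMMA.** -/
theorem pl_fold_raw (P : ℝ → Prop) (lam xi : Vec n) (θ : Shape n) (hθ : ∀ v ∈ θ, Dom v)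
    (hl : Dom lam) (hx : Dom xi) (w0 : WD n) (l : List (ℝ × RootD n))
    (h : IsSchedule lam θ xi w0 l) (hP : SwAllC P θ ⟨w0.act, lam⟩ l) :
    ∃ l' : List (ℝ × RootD n), IsDecPath Ty.D lam θ xi w0 l' ∧ SwLabel P θ ⟨w0.act, lam⟩ l' := by
  obtain ⟨e, he⟩ := sc_WD_one (n := n)
  have hinv : FoldInv θ ⟨w0.act, lam⟩ ⟨w0.act, lam⟩ e :=
    ⟨⟨w0, rfl⟩, ⟨w0, rfl⟩, (he _).symm, fun v _ => (he _).symm⟩
  obtain ⟨l', g', t1, t2, t3, t4, t5, t6⟩ :=
    pl_fold_aux P θ hθ _ 0 ⟨w0.act, lam⟩ ⟨w0.act, lam⟩ e l le_rfl (Nat.cast_nonneg _) hinv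
      h.times_mem h.sorted h.valid hP (by rw [pl_pos_zero]; exact hl)
  refine ⟨l', ⟨trivial, fun _ _ => trivial, t1, t2, t3, t4, ?_⟩, t5⟩
  obtain ⟨w, hw⟩ := h.endpoint
  obtain ⟨w', hw'⟩ := sc_WD_mul g' w
  have hend : (runSw θ ⟨w0.act, lam⟩ l').pos θ θ.length = w'.act xi := by
    rw [t6.pos_eq, hw, hw']
  have hdom := pl_inDom_end θ 0 ⟨w0.act, lam⟩ l' (Nat.cast_nonneg _) t1 t2 t4
  rw [hend] at hdom ⊢
  exact pl_dom_unique w' xi hx hdom

end Claimed.Agent.R282
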