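import Claimed.Agent.R282.S2AB.PL.Fold

/-!
# Row 282, package PL: (K7) the class of decreasing paths is closed in all its data

PLAN.  Take data `(lam_k, θ_k, xi_k, w0_k, l_k)` for `ε = 1/(k+1)`.  The lists have length `≤ |W|`
(`pl_down_length`, `pl_def_le`).  `pl_extract`: along a subsequence `w0_k = w`, the ROOTS of `l_k` are a fixed list `r`,
and all times converge.  Lists of switches are written `mkSw τ 0 r` (times `τ 0, τ 1, …`, roots `r`).
The state machine is continuous in `(c, θ, τ)` (`pl_step_tendsto`, `pl_run_pos_tendsto`), `SwDown` only sees `(w, r)`,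
`SwInDom` passes to the limit (`pl_inDom_limit`).

* Leaf L-PL-C1 = section `MkSw`
* Leaf L-PL-C2 = section `Cont`
* Leaf L-PL-C3 = `pl_inDom_limit`
* Leaf L-PL-C4 = `pl_extract`
* Leaf L-PL-C5 = `pl_decpath_closed` (assembly)
The continuity lemmas are also meant for S2C (L1), S34 (D3, E1): same state machine.
-/

set_option autoImplicit false

open Filter Topology

namespace Claimed.Agent.R282

variable {n : ℕ}

/-- switches with times `τ k, τ (k+1), …` and roots `r` -/
def mkSw (τ : ℕ → ℝ) : ℕ → List (RootD n) → List (ℝ × RootD n)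
  | _, [] => []
  | k, β :: r => (τ k, β) :: mkSw τ (k + 1) r

section MkSw

theorem pl_mkSw_snd (τ : ℕ → ℝ) (k : ℕ) (r : List (RootD n)) :
    (mkSw τ k r).map Prod.snd = r := by
  induction r generalizing k with
  | nil => rfl
  | cons β r ih => simp only [mkSw, List.map_cons, ih]

theorem pl_mkSw_length (τ : ℕ → ℝ) (k : ℕ) (r : List (RootD n)) :
    (mkSw τ k r).length = r.length := by
  induction r generalizing k with
  | nil => rfl
  | cons β r ih => simp only [mkSw, List.length_cons, ih]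

/-- only the times `τ j`, `k ≤ j < k + r.length`, matter -/
theorem pl_mkSw_congr (τ τ' : ℕ → ℝ) (k : ℕ) (r : List (RootD n))
    (h : ∀ j, k ≤ j → j < k + r.length → τ j = τ' j) : mkSw τ k r = mkSw τ' k r := by
  induction r generalizing k with
  | nil => rfl
  | cons β r ih =>
    simp only [mkSw]
    rw [h k le_rfl (by simp), ih (k + 1) (fun j h1 h2 => h j (by omega) (by
      simp only [List.length_cons]; omega))]

theorem pl_mkSw_eq_aux (l : List (ℝ × RootD n)) (k : ℕ) :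
    l = mkSw (fun j => (l.map Prod.fst).getD (j - k) 0) k (l.map Prod.snd) := by
  induction l generalizing k with
  | nil => rfl
  | cons p l ih =>
    simp only [List.map_cons, mkSw, Nat.sub_self, List.getD_cons_zero]
    congr 1
    refine (ih (k + 1)).trans (pl_mkSw_congr _ _ _ _ fun j h1 _ => ?_)
    have : j - k = (j - (k + 1)) + 1 := by omega
    rw [this, List.getD_cons_succ]

/-- every list of switches has this form (generalise to
`l = mkSw (fun j => (l.map Prod.fst).getD (j - k) 0) k (l.map Prod.snd)` for the induction) -/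
theorem pl_mkSw_eq (l : List (ℝ × RootD n)) :
    l = mkSw (fun j => (l.map Prod.fst).getD j 0) 0 (l.map Prod.snd) :=
  pl_mkSw_eq_aux l 0

theorem pl_mkSw_mem_iff (τ : ℕ → ℝ) (k : ℕ) (r : List (RootD n)) (Q : ℝ → Prop) :
    (∀ p ∈ mkSw τ k r, Q p.1) ↔ ∀ j, k ≤ j → j < k + r.length → Q (τ j) := by
  induction r generalizing k with
  | nil =>
    simp only [mkSw, List.not_mem_nil, false_imp_iff, implies_true, List.length_nil, add_zero, true_iff]
    intro j h1 h2
    omega
  | cons β r ih =>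
    simp only [mkSw, List.forall_mem_cons, ih (k + 1), List.length_cons]
    constructor
    · rintro ⟨h0, h1⟩ j hj1 hj2
      rcases Nat.eq_or_lt_of_le hj1 with rfl | hlt
      · exact h0
      · exact h1 j hlt (by omega)
    · intro h
      exact ⟨h k le_rfl (by omega), fun j h1 h2 => h j (by omega) (by omega)⟩

theorem pl_mkSw_pairwise (τ : ℕ → ℝ) (k : ℕ) (r : List (RootD n)) :
    (mkSw τ k r).Pairwise (fun p q => p.1 ≤ q.1) ↔
      ∀ i j, k ≤ i → i < j → j < k + r.length → τ i ≤ τ j := by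
  induction r generalizing k with
  | nil =>
    simp only [mkSw, List.Pairwise.nil, List.length_nil, add_zero, true_iff]
    intro i j h1 h2 h3
    omega
  | cons β r ih =>
    simp only [mkSw, List.pairwise_cons, ih (k + 1), List.length_cons]
    rw [pl_mkSw_mem_iff τ (k + 1) r (fun x => τ k ≤ x)]
    constructor
    · rintro ⟨h0, h1⟩ i j hi hij hj
      rcases Nat.eq_or_lt_of_le hi with rfl | hlt
      · exact h0 j hij (by omega)
      · exact h1 i j hlt hij (by omega)
    · intro h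
      exact ⟨fun j h1 h2 => h k j le_rfl h1 (by omega), fun i j h1 h2 h3 => h i j (by omega) h2 (by omega)⟩

end MkSw

/-- entrywise convergence of shapes of a fixed length -/
def ShapeTendsto (θs : ℕ → Shape n) (θ : Shape n) : Prop :=
  (∀ k, (θs k).length = θ.length) ∧
    ∀ i, Tendsto (fun k => (θs k).getD i 0) atTop (𝓝 (θ.getD i 0))

section Cont

theorem pl_shape_cons (θs : ℕ → Shape n) (v : Vec n) (θ : Shape n) (h : ShapeTendsto θs (v :: θ)) :
    (∀ k, θs k = (θs k).getD 0 0 :: (θs k).tail) ∧ ShapeTendsto (fun k => (θs k).tail) θ ∧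
      Tendsto (fun k => (θs k).getD 0 0) atTop (𝓝 v) := by
  have hdec : ∀ k, θs k = (θs k).getD 0 0 :: (θs k).tail := by
    intro k
    have := h.1 k
    cases hk : θs k with
    | nil => rw [hk] at this; simp at this
    | cons a l => simp
  refine ⟨hdec, ⟨fun k => by rw [List.length_tail, h.1 k]; simp, fun i => ?_⟩, by simpa using h.2 0⟩
  have := h.2 (i + 1)
  simp only [List.getD_cons_succ] at this
  refine this.congr fun k => ?_
  conv_lhs => rw [hdec k]
  rw [List.getD_cons_succ]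

/-- joint continuity of `Shape.val`.  PLAN: `dist (θ_k.val t_k) (θ.val t) ≤ dist (θ_k.val t_k) (θ.val t_k) + dist (θ.val t_k) (θ.val t)`;
first term by `sc_val_dist_le` with `ε_k = max_{i < length} dist …` (or: for every `ε`, eventually all `i < length` are
`ε`-close, the entries with `i ≥ length` are both `0`); second term by `sc_val_continuous`.
Alternative: induction on `θ` with the recursion of `Shape.val`. -/
theorem pl_val_tendsto (θs : ℕ → Shape n) (θ : Shape n) (h : ShapeTendsto θs θ) (ts : ℕ → ℝ)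
    (t : ℝ) (ht : Tendsto ts atTop (𝓝 t)) :
    Tendsto (fun k => (θs k).val (ts k)) atTop (𝓝 (θ.val t)) := by
  induction θ generalizing θs ts t with
  | nil =>
    have h0 : ∀ k, θs k = [] := fun k => List.length_eq_zero_iff.1 (h.1 k)
    simp only [h0]
    exact tendsto_const_nhds
  | cons v θ ih =>
    obtain ⟨hdec, h', hv⟩ := pl_shape_cons θs v θ h
    have e : ∀ k, (θs k).val (ts k)
        = (max 0 (min (ts k) 1)) • (θs k).getD 0 0 + Shape.val (θs k).tail (ts k - 1) := by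
      intro k
      conv_lhs => rw [hdec k]
      rfl
    simp only [e]
    show Tendsto _ _ (𝓝 ((max 0 (min t 1)) • v + Shape.val θ (t - 1)))
    exact ((tendsto_const_nhds.max (ht.min tendsto_const_nhds)).smul hv).add (ih _ h' _ _ (ht.sub_const 1))

theorem pl_sum_tendsto (θs : ℕ → Shape n) (θ : Shape n) (h : ShapeTendsto θs θ) :
    Tendsto (fun k => (θs k).sum) atTop (𝓝 θ.sum) := by
  induction θ generalizing θs with
  | nil =>
    have h0 : ∀ k, θs k = [] := fun k => List.length_eq_zero_iff.1 (h.1 k)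
    simp only [h0]
    exact tendsto_const_nhds
  | cons v θ ih =>
    obtain ⟨hdec, h', hv⟩ := pl_shape_cons θs v θ h
    have e : ∀ k, (θs k).sum = (θs k).getD 0 0 + (θs k).tail.sum := by
      intro k
      conv_lhs => rw [hdec k]
      rw [List.sum_cons]
    simp only [e, List.sum_cons]
    exact hv.add (ih _ h')

theorem pl_pos_tendsto (θs : ℕ → Shape n) (θ : Shape n) (h : ShapeTendsto θs θ)
    (f : Vec n → Vec n) (hf : IsFrame f) (cs : ℕ → Vec n) (c : Vec n)
    (hc : Tendsto cs atTop (𝓝 c)) (ts : ℕ → ℝ) (t : ℝ) (ht : Tendsto ts atTop (𝓝 t)) :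
    Tendsto (fun k => (⟨f, cs k⟩ : SwState n).pos (θs k) (ts k)) atTop
      (𝓝 ((⟨f, c⟩ : SwState n).pos θ t)) :=
  hc.add (((pl_frame_continuous f hf).tendsto _).comp (pl_val_tendsto θs θ h ts t ht))

/-- translation part after one switch -/
theorem pl_step_tendsto (θs : ℕ → Shape n) (θ : Shape n) (h : ShapeTendsto θs θ)
    (f : Vec n → Vec n) (hf : IsFrame f) (cs : ℕ → Vec n) (c : Vec n)
    (hc : Tendsto cs atTop (𝓝 c)) (ts : ℕ → ℝ) (t : ℝ) (ht : Tendsto ts atTop (𝓝 t))
    (β : RootD n) :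
    Tendsto (fun k => ((⟨f, cs k⟩ : SwState n).step (θs k) (ts k) β).c) atTop
      (𝓝 (((⟨f, c⟩ : SwState n).step θ t β).c)) := by
  have h1 : Tendsto (fun k => f ((θs k).val (ts k))) atTop (𝓝 (f (θ.val t))) :=
    ((pl_frame_continuous f hf).tendsto _).comp (pl_val_tendsto θs θ h ts t ht)
  have h2 : Tendsto (fun k => dot β.vec (f ((θs k).val (ts k)))) atTop (𝓝 (dot β.vec (f (θ.val t)))) := by
    simp only [dot_comm β.vec]
    exact ((continuous_dot_left β.vec).tendsto _).comp h1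
  exact hc.sub (h2.neg.smul_const β.vec)

/-- position after a whole list of switches (induction on `r`, generalising `f, cs, c, j0`; note
`(⟨f, c⟩ : SwState n).step θ t β = ⟨fun x => refl β (f x), _⟩` by `rfl`) -/
theorem pl_run_pos_tendsto (θs : ℕ → Shape n) (θ : Shape n) (h : ShapeTendsto θs θ)
    (f : Vec n → Vec n) (hf : IsFrame f) (cs : ℕ → Vec n) (c : Vec n)
    (hc : Tendsto cs atTop (𝓝 c)) (τs : ℕ → ℕ → ℝ) (τ : ℕ → ℝ)
    (hτ : ∀ j, Tendsto (fun k => τs k j) atTop (𝓝 (τ j))) (j0 : ℕ) (r : List (RootD n))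
    (ts : ℕ → ℝ) (t : ℝ) (ht : Tendsto ts atTop (𝓝 t)) :
    Tendsto (fun k => (runSw (θs k) ⟨f, cs k⟩ (mkSw (τs k) j0 r)).pos (θs k) (ts k)) atTop
      (𝓝 ((runSw θ ⟨f, c⟩ (mkSw τ j0 r)).pos θ t)) := by
  induction r generalizing f cs c j0 with
  | nil => exact pl_pos_tendsto θs θ h f hf cs c hc ts t ht
  | cons β r ih =>
    exact ih (fun x => refl β (f x)) (sc_isFrame_refl f hf β) _ _
      (pl_step_tendsto θs θ h f hf cs c hc _ _ (hτ j0) β) (j0 + 1)

end Cont

/-- `SwInDom` passes to the limit.  PLAN: induction on `r`, generalising `f, cs, c, as, a, j0`.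
Interval `[a, b]` (`b = τ j0` or `b = T`), `a ≤ t ≤ b`: put `t_k = max (as k) (min t b_k)`; then `as k ≤ t_k ≤ b_k`
(uses `as k ≤ b_k`) and `t_k → max a (min t b) = t`; `pl_pos_tendsto`, `pl_isClosed_dom` (`IsClosed.mem_of_tendsto`).
Step: `pl_step_tendsto`, new starting times `τs k j0 → τ j0`. -/
theorem pl_inDom_limit (θs : ℕ → Shape n) (θ : Shape n) (h : ShapeTendsto θs θ)
    (f : Vec n → Vec n) (hf : IsFrame f) (cs : ℕ → Vec n) (c : Vec n)
    (hc : Tendsto cs atTop (𝓝 c)) (τs : ℕ → ℕ → ℝ) (τ : ℕ → ℝ)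
    (hτ : ∀ j, Tendsto (fun k => τs k j) atTop (𝓝 (τ j))) (as : ℕ → ℝ) (a : ℝ)
    (ha : Tendsto as atTop (𝓝 a)) (j0 : ℕ) (r : List (RootD n))
    (haT : ∀ k, as k ≤ (θ.length : ℝ))
    (ht : ∀ k, ∀ p ∈ mkSw (τs k) j0 r, as k ≤ p.1 ∧ p.1 ≤ (θ.length : ℝ))
    (hs : ∀ k, (mkSw (τs k) j0 r).Pairwise (fun p q => p.1 ≤ q.1))
    (hD : ∀ k, SwInDom Ty.D (θs k) (as k) ⟨f, cs k⟩ (mkSw (τs k) j0 r)) :
    SwInDom Ty.D θ a ⟨f, c⟩ (mkSw τ j0 r) := by
  -- the interval argument
  have key : ∀ (f : Vec n → Vec n) (_ : IsFrame f) (cs : ℕ → Vec n) (c : Vec n) (_ : Tendsto cs atTop (𝓝 c))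
      (as bs : ℕ → ℝ) (a b : ℝ) (_ : Tendsto as atTop (𝓝 a)) (_ : Tendsto bs atTop (𝓝 b))
      (_ : ∀ k, as k ≤ bs k)
      (_ : ∀ k, ∀ t, as k ≤ t → t ≤ bs k → Ty.D.Dom ((⟨f, cs k⟩ : SwState n).pos (θs k) t)),
      ∀ t, a ≤ t → t ≤ b → Ty.D.Dom ((⟨f, c⟩ : SwState n).pos θ t) := by
    intro f hf cs c hc as bs a b ha hb hab hdom t h1 h2
    have htk : Tendsto (fun k => max (as k) (min t (bs k))) atTop (𝓝 t) := by
      have := ha.max (tendsto_const_nhds (x := t).min hb)
      rwa [min_eq_left h2, max_eq_right h1] at this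
    have hp := pl_pos_tendsto θs θ h f hf cs c hc _ t htk
    refine (pl_isClosed_dom (n := n)).mem_of_tendsto hp (Eventually.of_forall fun k => ?_)
    exact hdom k _ (le_max_left _ _) (max_le (hab k) (min_le_right _ _))
  induction r generalizing f cs c as a j0 with
  | nil =>
    refine key f hf cs c hc as (fun _ => (θ.length : ℝ)) a _ ha tendsto_const_nhds haT fun k t h1 h2 => ?_
    have := hD k t h1
    rw [h.1 k] at this
    exact this h2
  | cons β r ih =>
    refine ⟨key f hf cs c hc as (fun k => τs k j0) a _ ha (hτ j0)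
      (fun k => (ht k _ (List.mem_cons_self)).1) fun k t h1 h2 => (hD k).1 t h1 h2, ?_⟩
    refine ih (fun x => refl β (f x)) (sc_isFrame_refl f hf β) _ _
      (pl_step_tendsto θs θ h f hf cs c hc _ _ (hτ j0) β) (fun k => τs k j0) (τ j0) (hτ j0) (j0 + 1)
      (fun k => (ht k _ (List.mem_cons_self)).2) (fun k p hp => ?_) (fun k => (List.pairwise_cons.1 (hs k)).2)
      (fun k => (hD k).2)
    exact ⟨(List.pairwise_cons.1 (hs k)).1 p hp, (ht k p (List.mem_cons_of_mem _ hp)).2⟩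

/-- pigeonhole + compactness.  PLAN: the map `k ↦ (ws k, (ls k).map Prod.snd)` takes values in the finite set
`WD n × {r | r.length ≤ B}` (`sc_finite_WD`, `sc_finite_RootD`, `List.finite_length_le`): an infinite fibre
(`Finite.exists_infinite_fiber`) gives a strictly increasing `φ₁` (`Nat.orderEmbeddingOfSet`).  The time vectors
`k ↦ fun j => ((ls (φ₁ k)).map Prod.fst).getD j 0` lie in the compact set `Set.pi univ (fun _ => Set.Icc 0 T)` of `ℕ → ℝ`
(`isCompact_univ_pi`), `IsCompact.tendsto_subseq`, `tendsto_pi_nhds`. -/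
theorem pl_extract (T : ℝ) (hT : 0 ≤ T) (B : ℕ) (ws : ℕ → WD n) (ls : ℕ → List (ℝ × RootD n))
    (hB : ∀ k, (ls k).length ≤ B) (ht : ∀ k, ∀ p ∈ ls k, 0 ≤ p.1 ∧ p.1 ≤ T) :
    ∃ (φ : ℕ → ℕ) (w : WD n) (r : List (RootD n)) (τ : ℕ → ℝ), StrictMono φ ∧
      (∀ k, ws (φ k) = w) ∧ (∀ k, (ls (φ k)).map Prod.snd = r) ∧
      ∀ j, Tendsto (fun k => ((ls (φ k)).map Prod.fst).getD j 0) atTop (𝓝 (τ j)) := by
  classical
  have hW := sc_finite_WD (n := n)
  have hR := sc_finite_RootD (n := n)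
  have hLf : Finite {r : List (RootD n) // r.length ≤ B} := (List.finite_length_le (RootD n) B).to_subtype
  -- pigeonhole
  obtain ⟨⟨w, r⟩, hinf⟩ := Finite.exists_infinite_fiber
    (fun k : ℕ => ((ws k, ⟨(ls k).map Prod.snd, by rw [List.length_map]; exact hB k⟩) :
      WD n × {r : List (RootD n) // r.length ≤ B}))
  obtain ⟨S, hS⟩ : ∃ S : Set ℕ, S = (fun k : ℕ => ((ws k, ⟨(ls k).map Prod.snd, by
      rw [List.length_map]; exact hB k⟩) : WD n × {r : List (RootD n) // r.length ≤ B})) ⁻¹' {(w, r)} :=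
    ⟨_, rfl⟩
  rw [← hS] at hinf
  have hφ₁mem : ∀ k, (Nat.orderEmbeddingOfSet S k) ∈ S := fun k => by
    have : Nat.orderEmbeddingOfSet S k ∈ Set.range (Nat.orderEmbeddingOfSet S) := ⟨k, rfl⟩
    rwa [Nat.orderEmbeddingOfSet_range] at this
  have hφ₁ : StrictMono (Nat.orderEmbeddingOfSet S) := (Nat.orderEmbeddingOfSet S).strictMono
  have hfib : ∀ k ∈ S, ws k = w ∧ (ls k).map Prod.snd = r.1 := by
    intro k hk
    rw [hS, Set.mem_preimage, Set.mem_singleton_iff, Prod.mk.injEq] at hk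
    exact ⟨hk.1, congrArg Subtype.val hk.2⟩
  -- compactness
  have hcomp : IsCompact (Set.pi Set.univ fun _ : ℕ => Set.Icc (0 : ℝ) T) :=
    isCompact_univ_pi fun _ => isCompact_Icc
  have hmem : ∀ k, (fun j => ((ls (Nat.orderEmbeddingOfSet S k)).map Prod.fst).getD j 0)
      ∈ Set.pi Set.univ fun _ : ℕ => Set.Icc (0 : ℝ) T := by
    intro k j _
    simp only
    by_cases hj : j < ((ls (Nat.orderEmbeddingOfSet S k)).map Prod.fst).length
    · rw [List.getD_eq_getElem _ _ hj]
      have h1 : ((ls (Nat.orderEmbeddingOfSet S k)).map Prod.fst)[j]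
          ∈ (ls (Nat.orderEmbeddingOfSet S k)).map Prod.fst := List.getElem_mem hj
      obtain ⟨p, hp, hpe⟩ := List.mem_map.1 h1
      rw [← hpe]
      exact ht _ p hp
    · rw [List.getD_eq_default _ _ (not_lt.1 hj)]
      exact ⟨le_rfl, hT⟩
  obtain ⟨τ, -, φ₂, hφ₂, hlim⟩ := hcomp.tendsto_subseq hmem
  refine ⟨fun k => Nat.orderEmbeddingOfSet S (φ₂ k), w, r.1, τ, hφ₁.comp hφ₂,
    fun k => (hfib _ (hφ₁mem _)).1, fun k => (hfib _ (hφ₁mem _)).2, fun j => ?_⟩
  exact (tendsto_pi_nhds.1 hlim) j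

/-- (K7).  PLAN: see the header.  `choose` the data for `ε = 1 / (k + 1)`; `ShapeNear` gives `ShapeTendsto` (also along `φ`);
limit list `mkSw τ 0 r`; `times_mem`, `sorted`: `pl_mkSw_mem_iff`, `pl_mkSw_pairwise`, `le_of_tendsto'`, `ge_of_tendsto'`;
`down`: `pl_down_congr`; `inDom`: `pl_inDom_limit` with `as = 0`; `endpoint`: `pl_run_pos_tendsto` + `tendsto_nhds_unique`. -/
theorem pl_decpath_closed (lam xi : Vec n) (θ : Shape n)
    (h : ∀ ε > 0, ∃ (lam' : Vec n) (θ' : Shape n) (xi' : Vec n), dist lam' lam < ε ∧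
      ShapeNear ε θ' θ ∧ dist xi' xi < ε ∧ HasDecPath Ty.D lam' θ' xi') :
    HasDecPath Ty.D lam θ xi := by
  have hpos : ∀ k : ℕ, (0 : ℝ) < 1 / ((k : ℝ) + 1) := fun k => by positivity
  choose lams θs xis h1 h2 h3 h4 using fun k : ℕ => h (1 / ((k : ℝ) + 1)) (hpos k)
  choose ws ls hP using h4
  have hlen : ∀ k, (θs k).length = θ.length := fun k => (h2 k).1
  have hB : ∀ k, (ls k).length ≤ Nat.card (WD n) := fun k =>
    (pl_down_length (θs k) ⟨(ws k).act, lams k⟩ (sc_isFrame_act _) (ls k) (hP k).down).trans (pl_def_le _)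
  have htm : ∀ k, ∀ p ∈ ls k, 0 ≤ p.1 ∧ p.1 ≤ (θ.length : ℝ) := fun k p hp => by
    have := (hP k).times_mem p hp
    rwa [hlen k] at this
  obtain ⟨φ, w, r, τ, hφ, hw, hr, hτ⟩ := pl_extract (θ.length : ℝ) (Nat.cast_nonneg _) _ ws ls hB htm
  have heps : Tendsto (fun k : ℕ => 1 / ((k : ℝ) + 1)) atTop (𝓝 0) := tendsto_one_div_add_atTop_nhds_zero_nat
  have hlam : Tendsto lams atTop (𝓝 lam) :=
    tendsto_iff_dist_tendsto_zero.2 (squeeze_zero (fun _ => dist_nonneg) (fun k => (h1 k).le) heps)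
  have hxi : Tendsto xis atTop (𝓝 xi) :=
    tendsto_iff_dist_tendsto_zero.2 (squeeze_zero (fun _ => dist_nonneg) (fun k => (h3 k).le) heps)
  have hφt := hφ.tendsto_atTop
  have hθ' : ShapeTendsto (fun k => θs (φ k)) θ :=
    ⟨fun k => hlen _, fun i => (tendsto_iff_dist_tendsto_zero.2
      (squeeze_zero (fun _ => dist_nonneg) (fun k => ((h2 k).2 i).le) heps)).comp hφt⟩
  set τs : ℕ → ℕ → ℝ := fun k j => ((ls (φ k)).map Prod.fst).getD j 0 with hτs
  have hl : ∀ k, ls (φ k) = mkSw (τs k) 0 r := fun k => by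
    have := pl_mkSw_eq (ls (φ k))
    rw [hr k] at this
    exact this
  refine ⟨w, mkSw τ 0 r, ?_⟩
  refine
    { w0_mem := trivial
      roots_mem := fun _ _ => trivial
      times_mem := ?_
      sorted := ?_
      down := ?_
      inDom := ?_
      endpoint := ?_ }
  · refine (pl_mkSw_mem_iff τ 0 r (fun x => 0 ≤ x ∧ x ≤ (θ.length : ℝ))).2 (fun j h0 hj => ?_)
    have hk : ∀ k, 0 ≤ τs k j ∧ τs k j ≤ (θ.length : ℝ) := fun k =>
      (pl_mkSw_mem_iff (τs k) 0 r (fun x => 0 ≤ x ∧ x ≤ (θ.length : ℝ))).1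
        (by rw [← hl k]; exact htm _) j h0 hj
    exact ⟨ge_of_tendsto' (hτ j) (fun k => (hk k).1), le_of_tendsto' (hτ j) fun k => (hk k).2⟩
  · exact (pl_mkSw_pairwise τ 0 r).2 fun i j h0 hij hj =>
      le_of_tendsto_of_tendsto' (hτ i) (hτ j) fun k =>
        (pl_mkSw_pairwise (τs k) 0 r).1 (by rw [← hl k]; exact (hP _).sorted) i j h0 hij hj
  · exact pl_down_congr (θs (φ 0)) θ ⟨(ws (φ 0)).act, lams (φ 0)⟩ ⟨w.act, lam⟩ (by rw [hw 0])
      (ls (φ 0)) (mkSw τ 0 r) (by rw [hr 0, pl_mkSw_snd]) (hP _).down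
  · exact pl_inDom_limit (fun k => θs (φ k)) θ hθ' w.act (sc_isFrame_act w) (fun k => lams (φ k)) lam
      (hlam.comp hφt) τs τ hτ (fun _ => 0) 0 tendsto_const_nhds 0 r (fun _ => Nat.cast_nonneg _)
      (fun k p hp => by rw [← hl k] at hp; exact htm _ p hp)
      (fun k => by rw [← hl k]; exact (hP _).sorted)
      (fun k => by rw [← hl k, ← hw k]; exact (hP _).inDom)
  · have ht := pl_run_pos_tendsto (fun k => θs (φ k)) θ hθ' w.act (sc_isFrame_act w)
      (fun k => lams (φ k)) lam (hlam.comp hφt) τs τ hτ 0 r (fun _ => (θ.length : ℝ)) _ tendsto_const_nhds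
    have he : ∀ k, (runSw (θs (φ k)) ⟨w.act, lams (φ k)⟩ (mkSw (τs k) 0 r)).pos (θs (φ k)) (θ.length : ℝ)
        = xis (φ k) := fun k => by
      rw [← hl k, ← hw k]
      have := (hP (φ k)).endpoint
      rwa [hlen] at this
    simp only [he] at ht
    exact tendsto_nhds_unique ht (hxi.comp hφt)

end Claimed.Agent.R282
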