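import Claimed.Agent.R282.S2AB.PL.Basic

/-!
# Row 282, package PL: rational approximation (K13, K15), openness of regular shapes (K16)

All distances are sup distances on `Fin n → ℝ` (`dist_pi_le_iff`, `dist_pi_lt_iff`).
`floorV N x = ⌊N x⌋` coordinatewise, so `N⁻¹ • castV (floorV N x)` is `1/N`-close to `x`.

* Leaf L-PL-Q1 = section `Floor` + `pl_shape_reg_open` (K16)
* Leaf L-PL-Q2 = `pl_ss_top`, `pl_ss_bot`, `pl_ss_approx`, `pl_rat_approx` (K13)
* Leaf L-PL-Q3 = `pl_vpath_shift`, `pl_vpath_near`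
* Leaf L-PL-Q4 = `pl_vpath_rat_approx` (K15, assembly)
-/

set_option autoImplicit false

namespace Claimed.Agent.R282

variable {n : ℕ}

/-- coordinatewise floor of `N x` -/
noncomputable def floorV (N : ℕ) (x : Vec n) : Fin n → ℤ := fun i => ⌊(N : ℝ) * x i⌋

section Floor

theorem pl_floor_dist (N : ℕ) (hN : 0 < N) (x : Vec n) :
    dist ((N : ℝ)⁻¹ • castV (floorV N x)) x ≤ (N : ℝ)⁻¹ := by
  have hN' : (0 : ℝ) < N := by exact_mod_cast hN
  rw [dist_pi_le_iff (by positivity)]
  intro i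
  have h1 : ((⌊(N : ℝ) * x i⌋ : ℤ) : ℝ) ≤ N * x i := Int.floor_le _
  have h2 : (N : ℝ) * x i < ⌊(N : ℝ) * x i⌋ + 1 := Int.lt_floor_add_one _
  have e : ((N : ℝ)⁻¹ • castV (floorV N x)) i = (N : ℝ)⁻¹ * ((⌊(N : ℝ) * x i⌋ : ℤ) : ℝ) := rfl
  rw [e, Real.dist_eq, abs_le]
  have h3 : x i = (N : ℝ)⁻¹ * (N * x i) := by field_simp
  have h4 : (N : ℝ)⁻¹ * ((⌊(N : ℝ) * x i⌋ : ℤ) : ℝ) ≤ (N : ℝ)⁻¹ * (N * x i) :=
    mul_le_mul_of_nonneg_left h1 (by positivity)
  have h5 : (N : ℝ)⁻¹ * (N * x i) ≤ (N : ℝ)⁻¹ * (((⌊(N : ℝ) * x i⌋ : ℤ) : ℝ) + 1) :=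
    mul_le_mul_of_nonneg_left h2.le (by positivity)
  rw [mul_add, mul_one] at h5
  have h6 : (0 : ℝ) < (N : ℝ)⁻¹ := by positivity
  constructor <;> linarith

theorem pl_castV_add (x y : Fin n → ℤ) : castV (x + y) = castV x + castV y := by
  funext i
  simp [castV]

theorem pl_castV_sub (x y : Fin n → ℤ) : castV (x - y) = castV x - castV y := by
  funext i
  simp [castV]

theorem pl_castV_sum (l : List (Fin n → ℤ)) : castV l.sum = (l.map castV).sum := by
  induction l with
  | nil =>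
    funext i
    simp [castV]
  | cons a l ih =>
    rw [List.sum_cons, List.map_cons, List.sum_cons, ← ih]
    funext i
    simp [castV]

/-- sums of two lists of the same length with `e`-close entries -/
theorem pl_dist_list_sum_le (l l' : List (Vec n)) (h : l.length = l'.length) (e : ℝ)
    (he : ∀ i, dist (l.getD i 0) (l'.getD i 0) ≤ e) : dist l.sum l'.sum ≤ l.length * e := by
  induction l generalizing l' with
  | nil =>
    cases l' with
    | nil => simp
    | cons b l' => simp at h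
  | cons a l ih =>
    cases l' with
    | nil => simp at h
    | cons b l' =>
      have h0 : dist a b ≤ e := by simpa using he 0
      have h1 := ih l' (by simpa using h) (fun i => by simpa using he (i + 1))
      rw [List.sum_cons, List.sum_cons, List.length_cons]
      push_cast
      have := dist_add_add_le a l.sum b l'.sum
      linarith

/-- (K16): minimum of the radii of `pl_reg_ball` over the finitely many increments -/
theorem pl_shape_reg_open (θ : Shape n) (hθ : ∀ v ∈ θ, Ty.D.Reg v) :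
    ∃ ε₀ > 0, ∀ θ' : Shape n, ShapeNear ε₀ θ' θ → ∀ v ∈ θ', Ty.D.Reg v := by
  induction θ with
  | nil =>
    refine ⟨1, one_pos, fun θ' h v hv => ?_⟩
    have : θ' = [] := List.length_eq_zero_iff.1 (by simpa using h.1)
    rw [this] at hv
    exact absurd hv (List.not_mem_nil)
  | cons a θ ih =>
    obtain ⟨r, hr, hball⟩ := pl_reg_ball a (hθ a List.mem_cons_self)
    obtain ⟨ε₁, hε₁, h1⟩ := ih fun v hv => hθ v (List.mem_cons_of_mem _ hv)
    refine ⟨min r ε₁, lt_min hr hε₁, fun θ' h v hv => ?_⟩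
    cases θ' with
    | nil => exact absurd hv (List.not_mem_nil)
    | cons b θ' =>
      rcases List.mem_cons.1 hv with rfl | hv
      · refine hball _ (lt_of_lt_of_le ?_ (min_le_left r ε₁))
        simpa using h.2 0
      · refine h1 θ' ⟨by simpa using h.1, fun i => lt_of_lt_of_le ?_ (min_le_right r ε₁)⟩ v hv
        simpa using h.2 (i + 1)

end Floor

/-- `e_i = ((e_i + e_j) + (e_i - e_j)) / 2` -/
theorem pl_ss_top (hn : 2 ≤ n) : Ty.D.ss n = ⊤ := by
  rw [eq_top_iff]
  intro x _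
  rw [pi_eq_sum_univ x]
  refine Submodule.sum_mem _ fun i _ => Submodule.smul_mem _ _ ?_
  obtain ⟨j, hj⟩ : ∃ j : Fin n, i ≠ j := by
    by_cases h0 : (i : ℕ) = 0
    · exact ⟨⟨1, by omega⟩, fun h => by rw [h] at h0; simp at h0⟩
    · exact ⟨⟨0, by omega⟩, fun h => by rw [h] at h0; simp at h0⟩
  have h1 : (⟨i, j, hj, false, false⟩ : RootD n).vec ∈ Ty.D.ss n :=
    Submodule.subset_span ⟨_, trivial, rfl⟩
  have h2 : (⟨i, j, hj, false, true⟩ : RootD n).vec ∈ Ty.D.ss n :=
    Submodule.subset_span ⟨_, trivial, rfl⟩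
  have e : (fun k : Fin n => if i = k then (1 : ℝ) else 0)
      = (1 / 2 : ℝ) • ((⟨i, j, hj, false, false⟩ : RootD n).vec + (⟨i, j, hj, false, true⟩ : RootD n).vec) := by
    funext k
    simp only [RootD.vec, sgnB, Pi.smul_apply, Pi.add_apply, smul_eq_mul]
    by_cases hk : k = i
    · subst hk
      simp [hj]
      norm_num
    · have hk' : ¬ i = k := fun h => hk h.symm
      by_cases hkj : k = j
      · subst hkj
        simp [hk, hk']
      · simp [hk, hk', hkj]
  rw [e]
  exact Submodule.smul_mem _ _ (Submodule.add_mem _ h1 h2)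

/-- there are no roots for `n ≤ 1` -/
theorem pl_ss_bot (hn : n ≤ 1) : Ty.D.ss n = ⊥ := by
  unfold Ty.ss
  rw [Submodule.span_eq_bot]
  rintro v ⟨β, -, rfl⟩
  exfalso
  have : Subsingleton (Fin n) := Fin.subsingleton_iff_le_one.2 hn
  exact β.ne (Subsingleton.elim _ _)

/-- integral points of the semisimple space (`z = floorV N ζ` if `2 ≤ n`, `z = 0` otherwise) -/
theorem pl_ss_approx (ζ : Vec n) (hζ : ζ ∈ Ty.D.ss n) (N : ℕ) (hN : 0 < N) :
    ∃ z : Fin n → ℤ, (N : ℝ)⁻¹ • castV z ∈ Ty.D.ss n ∧ dist ((N : ℝ)⁻¹ • castV z) ζ ≤ (N : ℝ)⁻¹ := by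
  rcases Nat.lt_or_ge 1 n with hn | hn
  · refine ⟨floorV N ζ, ?_, pl_floor_dist N hN ζ⟩
    rw [pl_ss_top hn]
    exact Submodule.mem_top
  · rw [pl_ss_bot hn, Submodule.mem_bot] at hζ
    have e : (N : ℝ)⁻¹ • castV (0 : Fin n → ℤ) = 0 := by
      funext i
      simp [castV]
    refine ⟨0, ?_, ?_⟩
    · rw [e]; exact Submodule.zero_mem _
    · rw [e, hζ, dist_self]
      positivity

/-- the rounding map -/
theorem pl_round_getD (N : ℕ) (l : List (Vec n)) (i : ℕ) :
    ((l.map (floorV N)).map fun v => (N : ℝ)⁻¹ • castV v).getD i 0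
      = (N : ℝ)⁻¹ • castV (floorV N (l.getD i 0)) := by
  have e0 : (N : ℝ)⁻¹ • castV (floorV N (0 : Vec n)) = 0 := by
    funext k
    simp [castV, floorV]
  rw [List.map_map]
  conv_lhs => rw [← e0]
  exact List.getD_map (f := (fun v => (N : ℝ)⁻¹ • castV v) ∘ floorV N) (l := l) (d := (0 : Vec n)) (n := i)

theorem pl_round_sum (N : ℕ) (l : List (Fin n → ℤ)) :
    (N : ℝ)⁻¹ • castV l.sum = (l.map fun v => (N : ℝ)⁻¹ • castV v).sum := by
  induction l with
  | nil =>
    funext i
    simp [castV]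
  | cons a l ih =>
    rw [List.sum_cons, List.map_cons, List.sum_cons, pl_castV_add, smul_add, ih]

theorem pl_round_sum_dist (N : ℕ) (hN : 0 < N) (l : List (Vec n)) :
    dist ((N : ℝ)⁻¹ • castV (l.map (floorV N)).sum) l.sum ≤ l.length * (N : ℝ)⁻¹ := by
  rw [pl_round_sum]
  have h := pl_dist_list_sum_le ((l.map (floorV N)).map fun v => (N : ℝ)⁻¹ • castV v) l (by simp)
    (N : ℝ)⁻¹ (fun i => by rw [pl_round_getD]; exact pl_floor_dist N hN _)
  simpa using h

/-- (K13).  PLAN: `θ = v :: rest`; `θ₁ = (v + (mu - θ.sum)) :: rest` has sum `mu` and is `dist mu θ.sum`-close to `θ`.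
`s = ε - dist mu θ.sum > 0`.  Choose `N` with `(θ.length + 3) / N < min δ s`.  `a = floorV N lam`, `θ' = θ₁.map (floorV N)`,
`z` from `pl_ss_approx` for `ζ = lam + mu - xi`, `c = a + θ'.sum - z`.  Then
`N⁻¹ a + N⁻¹ θ'.sum - N⁻¹ c = N⁻¹ z ∈ ss`, and `N⁻¹ c` is `(θ.length + 2)/N`-close to `lam + mu - ζ = xi`. -/
theorem pl_rat_approx (lam mu xi : Vec n) (θ : Shape n) (hne : θ ≠ [])
    (hc : lam + mu - xi ∈ Ty.D.ss n) (ε : ℝ) (hmu : dist mu θ.sum < ε) (δ : ℝ) (hδ : 0 < δ) :
    ∃ (N : ℕ) (a c : Fin n → ℤ) (θ' : List (Fin n → ℤ)), 0 < N ∧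
      dist ((N : ℝ)⁻¹ • castV a) lam < δ ∧ dist ((N : ℝ)⁻¹ • castV θ'.sum) mu < δ ∧
      dist ((N : ℝ)⁻¹ • castV c) xi < δ ∧
      (N : ℝ)⁻¹ • castV a + (N : ℝ)⁻¹ • castV θ'.sum - (N : ℝ)⁻¹ • castV c ∈ Ty.D.ss n ∧
      ShapeNear ε (θ'.map fun v => (N : ℝ)⁻¹ • castV v) θ := by
  obtain ⟨v, rest, rfl⟩ : ∃ v rest, θ = v :: rest := by
    cases θ with
    | nil => exact absurd rfl hne
    | cons v rest => exact ⟨v, rest, rfl⟩
  obtain ⟨θ₁, hθ₁⟩ : ∃ θ₁ : Shape n, θ₁ = (v + (mu - (v :: rest).sum)) :: rest := ⟨_, rfl⟩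
  have hsum₁ : θ₁.sum = mu := by
    rw [hθ₁, List.sum_cons, List.sum_cons]
    abel
  have hlen₁ : θ₁.length = (v :: rest).length := by rw [hθ₁]; simp
  obtain ⟨s, hs⟩ : ∃ s, s = ε - dist mu (v :: rest).sum := ⟨_, rfl⟩
  have hs0 : 0 < s := by rw [hs]; linarith
  obtain ⟨L, hL⟩ : ∃ L : ℝ, L = ((v :: rest).length : ℝ) := ⟨_, rfl⟩
  have hL0 : 0 ≤ L := by rw [hL]; positivity
  obtain ⟨N, hN⟩ := exists_nat_gt ((L + 3) / min δ s)
  have hm : 0 < min δ s := lt_min hδ hs0
  have hNpos : (0 : ℝ) < N := lt_of_le_of_lt (by positivity) hN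
  have hN0 : 0 < N := by exact_mod_cast hNpos
  have hkey : (L + 3) * (N : ℝ)⁻¹ < min δ s := by
    rw [div_lt_iff₀ hm] at hN
    rw [← div_eq_mul_inv, div_lt_iff₀ hNpos]
    linarith
  have hinv : (0 : ℝ) < (N : ℝ)⁻¹ := by positivity
  have hδ' : (L + 3) * (N : ℝ)⁻¹ < δ := hkey.trans_le (min_le_left _ _)
  have hs' : (L + 3) * (N : ℝ)⁻¹ < s := hkey.trans_le (min_le_right _ _)
  obtain ⟨z, hz1, hz2⟩ := pl_ss_approx (lam + mu - xi) hc N hN0
  have d1 := pl_floor_dist N hN0 lam
  have d2 : dist ((N : ℝ)⁻¹ • castV (θ₁.map (floorV N)).sum) mu ≤ L * (N : ℝ)⁻¹ := by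
    have := pl_round_sum_dist N hN0 θ₁
    rwa [hsum₁, hlen₁, ← hL] at this
  have hLi : 0 ≤ L * (N : ℝ)⁻¹ := by positivity
  refine ⟨N, floorV N lam, floorV N lam + (θ₁.map (floorV N)).sum - z, θ₁.map (floorV N), hN0,
    ?_, ?_, ?_, ?_, ?_, ?_⟩
  · nlinarith
  · nlinarith
  · rw [pl_castV_sub, pl_castV_add, smul_sub, smul_add]
    have e : xi = lam + mu - (lam + mu - xi) := by abel
    conv_lhs => rw [e]
    have h1 := dist_sub_sub_le ((N : ℝ)⁻¹ • castV (floorV N lam)
      + (N : ℝ)⁻¹ • castV (θ₁.map (floorV N)).sum) ((N : ℝ)⁻¹ • castV z) (lam + mu) (lam + mu - xi)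
    have h2 := dist_add_add_le ((N : ℝ)⁻¹ • castV (floorV N lam))
      ((N : ℝ)⁻¹ • castV (θ₁.map (floorV N)).sum) lam mu
    nlinarith
  · rw [pl_castV_sub, pl_castV_add, smul_sub, smul_add]
    have e : (N : ℝ)⁻¹ • castV (floorV N lam) + (N : ℝ)⁻¹ • castV (θ₁.map (floorV N)).sum
        - ((N : ℝ)⁻¹ • castV (floorV N lam) + (N : ℝ)⁻¹ • castV (θ₁.map (floorV N)).sum
          - (N : ℝ)⁻¹ • castV z) = (N : ℝ)⁻¹ • castV z := by abel
    rw [e]
    exact hz1
  · simp [hlen₁]
  · intro i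
    rw [pl_round_getD]
    have h1 := pl_floor_dist N hN0 (θ₁.getD i 0)
    have h2 : dist (θ₁.getD i 0) ((v :: rest).getD i 0) ≤ dist mu (v :: rest).sum := by
      rw [hθ₁]
      cases i with
      | zero =>
        simp only [List.getD_cons_zero]
        rw [dist_eq_norm, dist_eq_norm]
        apply le_of_eq
        congr 1
        abel
      | succ i =>
        simp only [List.getD_cons_succ]
        rw [dist_self]
        exact dist_nonneg
    have h3 := dist_triangle ((N : ℝ)⁻¹ • castV (floorV N (θ₁.getD i 0))) (θ₁.getD i 0)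
      ((v :: rest).getD i 0)
    nlinarith

/-- shift the starting point by `e rho`: all vertices become regular (`pl_dom_add_reg`) -/
theorem pl_vpath_shift (lam xi : Vec n) (P : List (WD n × Vec n)) (h : IsVPath Ty.D lam P xi)
    (e : ℝ) (he : 0 < e) (k : ℕ) :
    Ty.D.Reg (lam + e • rhoV n + ((P.take k).map fun a => a.1.act a.2).sum) := by
  have e1 : lam + e • rhoV n + ((P.take k).map fun a => a.1.act a.2).sum
      = (lam + ((P.take k).map fun a => a.1.act a.2).sum) + e • rhoV n := by abel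
  rw [e1]
  exact pl_dom_add_reg _ _ (h.dom k) ((pl_reg_smul_iff _ e he).2 pl_rho_reg)

/-- a vertex path with regular vertices is stable: same frames, nearby start and pieces.
PLAN: radii from `pl_reg_ball` for the finitely many vertices `k ≤ P.length` (`List.take_of_length_le` for larger `k`) and pieces;
`r` = their minimum divided by `P.length + 1`; vertices move by at most `(P.length + 1) r'` (`pl_frame_dist`,
`pl_dist_list_sum_le`). -/
theorem pl_vpath_near (lam : Vec n) (P : List (WD n × Vec n)) (hreg : ∀ a ∈ P, Ty.D.Reg a.2)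
    (hdec : P.Pairwise (fun a b => BGe Ty.D a.1.act b.1.act))
    (hv : ∀ k, Ty.D.Reg (lam + ((P.take k).map fun a => a.1.act a.2).sum)) :
    ∃ r > 0, ∀ (lam' : Vec n) (p' : List (Vec n)), dist lam' lam < r → p'.length = P.length →
      (∀ i, dist (p'.getD i 0) ((P.map fun a => a.2).getD i 0) < r) →
      IsVPath Ty.D lam' (List.zip (P.map fun a => a.1) p')
        (lam' + ((List.zip (P.map fun a => a.1) p').map fun a => a.1.act a.2).sum) := by
  induction P generalizing lam with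
  | nil =>
    have h0 : Ty.D.Reg lam := by simpa using hv 0
    obtain ⟨r, hr, hball⟩ := pl_reg_ball lam h0
    refine ⟨r, hr, fun lam' p' h1 h2 _ => ?_⟩
    have hp : p' = [] := List.length_eq_zero_iff.1 (by simpa using h2)
    subst hp
    refine ⟨by simp, by simp, by simp, fun k => ?_, rfl⟩
    have : Ty.D.Reg lam' := hball lam' h1
    have e : lam' + ((List.take k (List.zip (List.map (fun a => a.1) ([] : List (WD n × Vec n))) [])).map
        fun a : WD n × Vec n => a.1.act a.2).sum = lam' := by simp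
    rw [e]
    exact pl_reg_dom _ this
  | cons a P ih =>
    have h0 : Ty.D.Reg lam := by simpa using hv 0
    obtain ⟨r₀, hr₀, hball₀⟩ := pl_reg_ball lam h0
    obtain ⟨r₁, hr₁, hball₁⟩ := pl_reg_ball a.2 (hreg a List.mem_cons_self)
    rw [List.pairwise_cons] at hdec
    obtain ⟨r₂, hr₂, hI⟩ := ih (lam + a.1.act a.2) (fun b hb => hreg b (List.mem_cons_of_mem _ hb))
      hdec.2 (fun k => by
        have := hv (k + 1)
        rw [List.take_succ_cons, List.map_cons, List.sum_cons, ← add_assoc] at this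
        exact this)
    refine ⟨min (min r₀ r₁) (r₂ / 2), by positivity, fun lam' p' h1 h2 h3 => ?_⟩
    cases p' with
    | nil => simp at h2
    | cons q p' =>
      have hq : dist q a.2 < min (min r₀ r₁) (r₂ / 2) := by simpa using h3 0
      have hq1 : dist q a.2 < r₁ := hq.trans_le ((min_le_left _ _).trans (min_le_right _ _))
      have hq2 : dist q a.2 < r₂ / 2 := hq.trans_le (min_le_right _ _)
      have hl0 : dist lam' lam < r₀ := h1.trans_le ((min_le_left _ _).trans (min_le_left _ _))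
      have hl2 : dist lam' lam < r₂ / 2 := h1.trans_le (min_le_right _ _)
      have hstart : dist (lam' + a.1.act q) (lam + a.1.act a.2) < r₂ := by
        have e1 := dist_add_add_le lam' (a.1.act q) lam (a.1.act a.2)
        rw [pl_frame_dist a.1.act ⟨a.1, rfl⟩] at e1
        linarith
      have hT := hI (lam' + a.1.act q) p' hstart (by simpa using h2) (fun i => by
        have h4 := h3 (i + 1)
        rw [List.map_cons, List.getD_cons_succ, List.getD_cons_succ] at h4
        have h5 : min (min r₀ r₁) (r₂ / 2) ≤ r₂ / 2 := min_le_right _ _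
        linarith)
      simp only [List.map_cons, List.zip_cons_cons, List.sum_cons]
      refine ⟨fun _ _ => trivial, ?_, ?_, ?_, rfl⟩
      · intro b hb
        rcases List.mem_cons.1 hb with rfl | hb
        · exact hball₁ q hq1
        · exact hT.reg b hb
      · rw [List.pairwise_cons]
        refine ⟨fun b hb => ?_, hT.dec⟩
        have hb1 : b.1 ∈ P.map fun a => a.1 := (List.of_mem_zip hb).1
        obtain ⟨b₀, hb₀, hbe⟩ := List.mem_map.1 hb1
        have := hdec.1 b₀ hb₀
        rw [hbe] at this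
        exact this
      · intro k
        cases k with
        | zero =>
          have : Ty.D.Reg lam' := hball₀ lam' hl0
          rw [List.take_zero, List.map_nil, List.sum_nil, add_zero]
          exact pl_reg_dom _ this
        | succ k =>
          rw [List.take_succ_cons, List.map_cons, List.sum_cons, ← add_assoc]
          exact hT.dom k

theorem pl_act_smul_sum (r : ℝ) (L : List (WD n × Vec n)) :
    ((L.map fun a => (a.1, r • a.2)).map fun a => a.1.act a.2).sum
      = r • (L.map fun a => a.1.act a.2).sum := by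
  induction L with
  | nil => simp
  | cons a L ih =>
    simp only [List.map_cons, List.sum_cons]
    rw [ih, smul_add, (sc_isFrame_linear a.1.act ⟨a.1, rfl⟩).map_smul]

/-- vertex paths can be scaled -/
theorem pl_vpath_smul (lam xi : Vec n) (P : List (WD n × Vec n)) (h : IsVPath Ty.D lam P xi)
    (r : ℝ) (hr : 0 < r) :
    IsVPath Ty.D (r • lam) (P.map fun a => (a.1, r • a.2)) (r • xi) := by
  refine ⟨fun _ _ => trivial, ?_, ?_, ?_, ?_⟩
  · intro b hb
    obtain ⟨a, ha, rfl⟩ := List.mem_map.1 hb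
    exact (pl_reg_smul_iff _ r hr).2 (h.reg a ha)
  · rw [List.pairwise_map]
    exact h.dec
  · intro k
    rw [← List.map_take, pl_act_smul_sum, ← smul_add]
    exact (pl_dom_smul_iff _ r hr).2 (h.dom k)
  · rw [pl_act_smul_sum, ← smul_add, h.endpoint]

theorem pl_act_castV_sum (L : List (WD n × (Fin n → ℤ))) :
    ∃ q : Fin n → ℤ, (L.map fun a => a.1.act (castV a.2)).sum = castV q := by
  induction L with
  | nil => exact ⟨0, by funext i; simp [castV]⟩
  | cons a L ih =>
    obtain ⟨q, hq⟩ := ih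
    obtain ⟨p, hp⟩ := pl_act_castV a.1 a.2
    exact ⟨p + q, by rw [List.map_cons, List.sum_cons, hq, hp, pl_castV_add]⟩

theorem pl_zip_round (N : ℕ) (hN : (N : ℝ) ≠ 0) (P : List (WD n × Vec n)) :
    ((List.zip (P.map fun a => a.1)
        (((P.map fun a => a.2).map (floorV N)).map fun v => (N : ℝ)⁻¹ • castV v)).map
          fun a => (a.1, (N : ℝ) • a.2))
      = (P.map fun a => (a.1, floorV N a.2)).map fun a => (a.1, castV a.2) := by
  induction P with
  | nil => simp
  | cons a P ih =>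
    simp only [List.map_cons, List.zip_cons_cons]
    rw [ih, smul_smul, mul_inv_cancel₀ hN, one_smul]

theorem pl_act_round_sum_dist (N : ℕ) (hN : 0 < N) (P : List (WD n × Vec n)) :
    dist ((N : ℝ)⁻¹ • ((P.map fun a => (a.1, floorV N a.2)).map fun a => a.1.act (castV a.2)).sum)
      (P.map fun a => a.1.act a.2).sum ≤ P.length * (N : ℝ)⁻¹ := by
  induction P with
  | nil => simp
  | cons a P ih =>
    simp only [List.map_cons, List.sum_cons, List.length_cons]
    rw [smul_add, ← (sc_isFrame_linear a.1.act ⟨a.1, rfl⟩).map_smul]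
    have h1 := dist_add_add_le (a.1.act ((N : ℝ)⁻¹ • castV (floorV N a.2)))
      ((N : ℝ)⁻¹ • ((P.map fun a => (a.1, floorV N a.2)).map fun a => a.1.act (castV a.2)).sum)
      (a.1.act a.2) (P.map fun a => a.1.act a.2).sum
    rw [pl_frame_dist a.1.act ⟨a.1, rfl⟩] at h1
    have h2 := pl_floor_dist N hN a.2
    push_cast
    linarith

/-- (K15).  PLAN: `e` small, `lam₁ = lam + e • rho`; `r` from `pl_vpath_near` (hypotheses by `pl_vpath_shift`); `N` large;
`lam' = floorV N lam₁`, `P' = P.map (fun a => (a.1, floorV N a.2))`; apply `pl_vpath_near` to `N⁻¹ • castV …`, scale by `N`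
(`pl_vpath_smul`); `xi'` integral by `pl_act_castV` (induction on the list).  Distances: `e n + (P.length + 1)/N < ε`. -/
theorem pl_vpath_rat_approx (lam xi : Vec n) (P : List (WD n × Vec n))
    (h : IsVPath Ty.D lam P xi) (ε : ℝ) (hε : 0 < ε) :
    ∃ (N : ℕ) (lam' xi' : Fin n → ℤ) (P' : List (WD n × (Fin n → ℤ))), 0 < N ∧
      IsVPath Ty.D (castV lam') (P'.map fun a => (a.1, castV a.2)) (castV xi') ∧
      dist ((N : ℝ)⁻¹ • castV lam') lam < ε ∧
      dist ((N : ℝ)⁻¹ • castV (P'.map fun a => a.2).sum) (P.map fun a => a.2).sum < ε ∧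
      dist ((N : ℝ)⁻¹ • castV xi') xi < ε := by
  obtain ⟨e, he⟩ : ∃ e : ℝ, e = ε / (2 * (n + 1)) := ⟨_, rfl⟩
  have he0 : 0 < e := by rw [he]; positivity
  have hen : e * n < ε / 2 := by
    rw [he, div_mul_eq_mul_div, div_lt_iff₀ (by positivity)]
    nlinarith
  obtain ⟨lam₁, hlam₁⟩ : ∃ lam₁ : Vec n, lam₁ = lam + e • rhoV n := ⟨_, rfl⟩
  have hd₁ : dist lam₁ lam ≤ e * n := by
    rw [hlam₁, dist_eq_norm, add_sub_cancel_left, norm_smul, Real.norm_eq_abs, abs_of_pos he0]
    exact mul_le_mul_of_nonneg_left pl_norm_rho_le he0.le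
  obtain ⟨r, hr, hnear⟩ := pl_vpath_near lam₁ P h.reg h.dec (fun k => by
    rw [hlam₁]; exact pl_vpath_shift lam xi P h e he0 k)
  obtain ⟨L, hL⟩ : ∃ L : ℝ, L = (P.length : ℝ) := ⟨_, rfl⟩
  have hL0 : 0 ≤ L := by rw [hL]; positivity
  obtain ⟨N, hN⟩ := exists_nat_gt (max (1 / r) ((L + 1) / (ε / 2)))
  have hNpos : (0 : ℝ) < N := lt_of_le_of_lt (le_max_of_le_left (by positivity)) hN
  have hN0 : 0 < N := by exact_mod_cast hNpos
  have hNr : (N : ℝ)⁻¹ < r := by
    have h1 : 1 / r < N := (le_max_left _ _).trans_lt hN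
    rw [div_lt_iff₀ hr] at h1
    rw [← one_div, div_lt_iff₀ hNpos]
    linarith
  have hNε : (L + 1) * (N : ℝ)⁻¹ < ε / 2 := by
    have h1 : (L + 1) / (ε / 2) < N := (le_max_right _ _).trans_lt hN
    rw [div_lt_iff₀ (by positivity)] at h1
    rw [← div_eq_mul_inv, div_lt_iff₀ hNpos]
    linarith
  have hinv : (0 : ℝ) < (N : ℝ)⁻¹ := by positivity
  have hV := hnear ((N : ℝ)⁻¹ • castV (floorV N lam₁))
    (((P.map fun a => a.2).map (floorV N)).map fun v => (N : ℝ)⁻¹ • castV v)
    ((pl_floor_dist N hN0 lam₁).trans_lt hNr) (by simp)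
    (fun i => by rw [pl_round_getD]; exact (pl_floor_dist N hN0 _).trans_lt hNr)
  have hS := pl_vpath_smul _ _ _ hV (N : ℝ) hNpos
  rw [pl_zip_round N hNpos.ne', smul_smul, mul_inv_cancel₀ hNpos.ne', one_smul] at hS
  obtain ⟨q, hq⟩ := pl_act_castV_sum (P.map fun a => (a.1, floorV N a.2))
  have hmm : (((P.map fun a => (a.1, floorV N a.2)).map fun a => (a.1, castV a.2)).map
      fun a : WD n × Vec n => a.1.act a.2)
      = (P.map fun a => (a.1, floorV N a.2)).map fun a => a.1.act (castV a.2) := by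
    rw [List.map_map]
    rfl
  have d1 := pl_floor_dist N hN0 lam₁
  have hLi : 0 ≤ L * (N : ℝ)⁻¹ := by positivity
  refine ⟨N, floorV N lam₁, floorV N lam₁ + q, P.map fun a => (a.1, floorV N a.2), hN0,
    ⟨hS.weyl, hS.reg, hS.dec, hS.dom, ?_⟩, ?_, ?_, ?_⟩
  · rw [hmm, hq, pl_castV_add]
  · have := dist_triangle ((N : ℝ)⁻¹ • castV (floorV N lam₁)) lam₁ lam
    nlinarith
  · have e1 : ((P.map fun a => (a.1, floorV N a.2)).map fun a => a.2)
        = (P.map fun a => a.2).map (floorV N) := by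
      rw [List.map_map, List.map_map]
      rfl
    rw [e1]
    have := pl_round_sum_dist N hN0 (P.map fun a => a.2)
    rw [List.length_map, ← hL] at this
    nlinarith
  · rw [pl_castV_add, smul_add, ← hq, ← h.endpoint]
    have h1 := dist_add_add_le ((N : ℝ)⁻¹ • castV (floorV N lam₁))
      ((N : ℝ)⁻¹ • ((P.map fun a => (a.1, floorV N a.2)).map fun a => a.1.act (castV a.2)).sum)
      lam (P.map fun a => a.1.act a.2).sum
    have h2 := pl_act_round_sum_dist N hN0 P
    rw [← hL] at h2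
    have h3 := dist_triangle ((N : ℝ)⁻¹ • castV (floorV N lam₁)) lam₁ lam
    nlinarith

end Claimed.Agent.R282
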