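import Claimed.Agent.R282.S2AB.PL.Fold

/-!
# Row 282, package PL: (K9) time form ⇒ vertex form of a decreasing path

Cut the path at the switch times and at the integers.  On a piece the path is straight with direction
`w (c • θ_j)`, `c > 0`.

* Leaf L-PL-V1 = `pl_seg_single`, `pl_seg_concat`, `pl_seg`
* Leaf L-PL-V2 = `pl_vpath_aux`
* glue `pl_decpath_vpath` PROVED here.
-/

set_option autoImplicit false

namespace Claimed.Agent.R282

variable {n : ℕ}

/-- `L` is a subdivision of the shape between the times `a ≤ b` into regular pieces -/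
structure IsSeg (θ : Shape n) (a b : ℝ) (L : List (Vec n)) : Prop where
  reg : ∀ v ∈ L, Ty.D.Reg v
  sum : L.sum = θ.val b - θ.val a
  part : ∀ k, ∃ s, a ≤ s ∧ s ≤ b ∧ (L.take k).sum = θ.val s - θ.val a

theorem pl_seg_nil (θ : Shape n) (a : ℝ) : IsSeg θ a a [] :=
  ⟨by simp, by simp, fun k => ⟨a, le_rfl, le_rfl, by simp⟩⟩

/-- inside one piece `[k, k+1]`: `L = [(b - a) • θ[k]]` if `a < b`, `L = []` if `a = b` (`sc_val_segment`) -/
theorem pl_seg_single (θ : Shape n) (hθ : ∀ v ∈ θ, Ty.D.Reg v) (k : ℕ) (hk : k < θ.length)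
    (a b : ℝ) (h0 : (k : ℝ) ≤ a) (hab : a ≤ b) (h1 : b ≤ k + 1) : ∃ L, IsSeg θ a b L := by
  rcases hab.eq_or_lt with rfl | hlt
  · exact ⟨[], pl_seg_nil θ a⟩
  · have hv : θ.val b - θ.val a = (b - a) • θ[k] := by
      rw [sc_val_segment θ k hk b (h0.trans hab) h1, sc_val_segment θ k hk a h0 (hab.trans h1)]
      module
    refine ⟨[(b - a) • θ[k]], ?_, ?_, ?_⟩
    · intro v hv'
      rw [List.mem_singleton] at hv'
      subst hv'
      exact (pl_reg_smul_iff _ _ (sub_pos.2 hlt)).2 (hθ _ (List.getElem_mem hk))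
    · rw [hv]; simp
    · intro j
      cases j with
      | zero => exact ⟨a, le_rfl, hab, by simp⟩
      | succ j => exact ⟨b, hab, le_rfl, by rw [hv]; simp⟩

/-- concatenation (`List.take_append`) -/
theorem pl_seg_concat (θ : Shape n) (a b c : ℝ) (L₁ L₂ : List (Vec n)) (h₁ : IsSeg θ a b L₁)
    (h₂ : IsSeg θ b c L₂) : IsSeg θ a c (L₁ ++ L₂) := by
  obtain ⟨s₁, hs₁, hs₁', _⟩ := h₁.part 0
  obtain ⟨s₂, hs₂, hs₂', _⟩ := h₂.part 0
  have hab : a ≤ b := hs₁.trans hs₁'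
  have hbc : b ≤ c := hs₂.trans hs₂'
  refine ⟨?_, ?_, ?_⟩
  · intro v hv
    rcases List.mem_append.1 hv with hv | hv
    · exact h₁.reg v hv
    · exact h₂.reg v hv
  · rw [List.sum_append, h₁.sum, h₂.sum]; abel
  · intro k
    rw [List.take_append, List.sum_append]
    rcases le_total k L₁.length with hk | hk
    · obtain ⟨s, h1, h2, h3⟩ := h₁.part k
      refine ⟨s, h1, h2.trans hbc, ?_⟩
      rw [Nat.sub_eq_zero_of_le hk, List.take_zero, List.sum_nil, add_zero, h3]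
    · obtain ⟨s, h1, h2, h3⟩ := h₂.part (k - L₁.length)
      refine ⟨s, hab.trans h1, h2, ?_⟩
      rw [List.take_of_length_le hk, h₁.sum, h3]; abel

theorem pl_seg_aux (θ : Shape n) (hθ : ∀ v ∈ θ, Ty.D.Reg v) (j : ℕ) :
    ∀ a b : ℝ, 0 ≤ a → a ≤ b → b ≤ (θ.length : ℝ) → b ≤ (⌊a⌋₊ : ℝ) + 1 + j →
      ∃ L, IsSeg θ a b L := by
  induction j with
  | zero =>
    intro a b h0 hab h1 h2
    rcases hab.eq_or_lt with rfl | hlt
    · exact ⟨[], pl_seg_nil θ a⟩
    · have hk : ⌊a⌋₊ < θ.length := by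
        have h3 : ((⌊a⌋₊ : ℕ) : ℝ) < (θ.length : ℝ) :=
          lt_of_le_of_lt (Nat.floor_le h0) (hlt.trans_le h1)
        exact_mod_cast h3
      exact pl_seg_single θ hθ ⌊a⌋₊ hk a b (Nat.floor_le h0) hab (by simpa using h2)
  | succ j ih =>
    intro a b h0 hab h1 h2
    by_cases hb : b ≤ (⌊a⌋₊ : ℝ) + 1
    · exact ih a b h0 hab h1 (by have : (0 : ℝ) ≤ j := Nat.cast_nonneg j; linarith)
    · have hb' := not_le.1 hb
      have hac : a ≤ (⌊a⌋₊ : ℝ) + 1 := (Nat.lt_floor_add_one a).le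
      have hk : ⌊a⌋₊ < θ.length := by
        have h3 : ((⌊a⌋₊ : ℕ) : ℝ) < (θ.length : ℝ) := by linarith
        exact_mod_cast h3
      obtain ⟨L₁, h₁⟩ := pl_seg_single θ hθ ⌊a⌋₊ hk a ((⌊a⌋₊ : ℝ) + 1) (Nat.floor_le h0) hac le_rfl
      have hfc : ⌊(⌊a⌋₊ : ℝ) + 1⌋₊ = ⌊a⌋₊ + 1 := by
        have : ((⌊a⌋₊ : ℝ) + 1) = ((⌊a⌋₊ + 1 : ℕ) : ℝ) := by push_cast; ring
        rw [this, Nat.floor_natCast]
      obtain ⟨L₂, h₂⟩ := ih ((⌊a⌋₊ : ℝ) + 1) b (by positivity) hb'.le h1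
        (by rw [hfc]; push_cast at h2 ⊢; linarith)
      exact ⟨_, pl_seg_concat θ a _ b L₁ L₂ h₁ h₂⟩

/-- PLAN: induction on `j` for the statement `b ≤ ⌊a⌋₊ + 1 + j → …`: split at `⌊a⌋₊ + 1`. -/
theorem pl_seg (θ : Shape n) (hθ : ∀ v ∈ θ, Ty.D.Reg v) (a b : ℝ) (h0 : 0 ≤ a) (hab : a ≤ b)
    (h1 : b ≤ (θ.length : ℝ)) : ∃ L, IsSeg θ a b L := by
  refine pl_seg_aux θ hθ ⌈b⌉₊ a b h0 hab h1 ?_
  have h2 := Nat.le_ceil b
  have h3 : (0 : ℝ) ≤ (⌊a⌋₊ : ℝ) := Nat.cast_nonneg _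
  linarith

theorem pl_vsum_const (w : WD n) (L : List (Vec n)) :
    ((L.map fun v => (w, v)).map fun q : WD n × Vec n => q.1.act q.2).sum = w.act L.sum := by
  rw [List.map_map]
  exact sc_sum_map L w.act (sc_WD_act_isLinear w)

theorem pl_pos_add (w : WD n) (c : Vec n) (θ : Shape n) (a s : ℝ) :
    (⟨w.act, c⟩ : SwState n).pos θ a + w.act (θ.val s - θ.val a)
      = (⟨w.act, c⟩ : SwState n).pos θ s := by
  show c + w.act (θ.val a) + w.act (θ.val s - θ.val a) = c + w.act (θ.val s)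
  rw [(sc_WD_act_isLinear w).map_sub]
  abel

/-- the induction on the list of switches.  PLAN: generalise `a, w, c`.
`[]`: `L` from `pl_seg` on `[a, T]`, `P = L.map (w, ·)`; partial sums: `c + w (η a) + w (η s - η a) = pos s` (linearity of `w.act`,
`sc_WD_act_isLinear`, sums of mapped lists).
`(t, β) :: l`: `L` from `pl_seg` on `[a, t]`; `w'` with `w'.act = refl β ∘ w.act` (`sc_WD_refl`, `sc_WD_mul`);
the state after the switch is `⟨w'.act, _⟩` (funext); IH at time `t` (`sc_pos_step`); `P = L.map (w, ·) ++ P'`;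
`BGe w w'` is one `Down` step (`pl_pos_iff`); `List.pairwise_append`, `List.take_append`. -/
theorem pl_vpath_aux (θ : Shape n) (hθ : ∀ v ∈ θ, Ty.D.Reg v) (l : List (ℝ × RootD n)) :
    ∀ (a : ℝ) (w : WD n) (c : Vec n), 0 ≤ a → a ≤ (θ.length : ℝ) →
      (∀ p ∈ l, a ≤ p.1 ∧ p.1 ≤ (θ.length : ℝ)) → l.Pairwise (fun p q => p.1 ≤ q.1) →
      SwDown θ ⟨w.act, c⟩ l → SwInDom Ty.D θ a ⟨w.act, c⟩ l →
      ∃ P : List (WD n × Vec n), (∀ q ∈ P, Ty.D.Reg q.2) ∧ (∀ q ∈ P, BGe Ty.D w.act q.1.act) ∧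
        P.Pairwise (fun q q' => BGe Ty.D q.1.act q'.1.act) ∧
        (∀ k, Dom ((⟨w.act, c⟩ : SwState n).pos θ a + ((P.take k).map fun q => q.1.act q.2).sum)) ∧
        (⟨w.act, c⟩ : SwState n).pos θ a + (P.map fun q => q.1.act q.2).sum
          = (runSw θ ⟨w.act, c⟩ l).pos θ θ.length ∧
        (P.map fun q => q.2).sum = θ.sum - θ.val a := by
  induction l with
  | nil =>
    intro a w c h0 haT _ _ _ hD
    obtain ⟨L, hL⟩ := pl_seg θ hθ a θ.length h0 haT le_rfl
    refine ⟨L.map fun v => (w, v), ?_, ?_, ?_, ?_, ?_, ?_⟩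
    · intro q hq
      obtain ⟨v, hv, rfl⟩ := List.mem_map.1 hq
      exact hL.reg v hv
    · intro q hq
      obtain ⟨v, hv, rfl⟩ := List.mem_map.1 hq
      exact Relation.ReflTransGen.refl
    · exact List.pairwise_map.2 (List.pairwise_of_forall fun _ _ => Relation.ReflTransGen.refl)
    · intro k
      obtain ⟨s, h1, h2, h3⟩ := hL.part k
      rw [← List.map_take, pl_vsum_const, h3, pl_pos_add]
      exact hD s h1 h2
    · rw [pl_vsum_const, hL.sum, pl_pos_add]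
      rfl
    · rw [List.map_map]
      show (L.map fun v => v).sum = _
      rw [List.map_id', hL.sum, sc_val_length]
  | cons p l ih =>
    intro a w c h0 haT ht hs hdown hD
    obtain ⟨hpos, hneg, hdown'⟩ := hdown
    obtain ⟨hD1, hD2⟩ := hD
    obtain ⟨hpl, hs'⟩ := List.pairwise_cons.1 hs
    obtain ⟨hat, htT⟩ := ht p List.mem_cons_self
    obtain ⟨L, hL⟩ := pl_seg θ hθ a p.1 h0 hat htT
    obtain ⟨r, hr⟩ := sc_WD_refl p.2
    obtain ⟨w', hw'⟩ := sc_WD_mul r w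
    have hfun : w'.act = fun x => refl p.2 (w.act x) := funext fun x => by rw [hw', hr]
    obtain ⟨c', hc'⟩ : ∃ c', c' = ((⟨w.act, c⟩ : SwState n).step θ p.1 p.2).c := ⟨_, rfl⟩
    have hst : (⟨w.act, c⟩ : SwState n).step θ p.1 p.2 = ⟨w'.act, c'⟩ := by
      rw [hc', hfun]
      rfl
    rw [hst] at hdown' hD2
    obtain ⟨P', g1, g2, g3, g4, g5, g6⟩ := ih p.1 w' c' (h0.trans hat) htT
      (fun q hq => ⟨hpl q hq, (ht q (List.mem_cons_of_mem _ hq)).2⟩) hs' hdown' hD2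
    have hpos' : (⟨w'.act, c'⟩ : SwState n).pos θ p.1 = (⟨w.act, c⟩ : SwState n).pos θ p.1 := by
      rw [← hst, sc_pos_step]
    have hww' : BGe Ty.D w.act w'.act :=
      Relation.ReflTransGen.single ⟨p.2, trivial, (pl_pos_iff p.2).2 hpos, hneg, hfun⟩
    have hmid : (⟨w.act, c⟩ : SwState n).pos θ a + w.act L.sum
        = (⟨w'.act, c'⟩ : SwState n).pos θ p.1 := by
      rw [hL.sum, pl_pos_add, hpos']
    refine ⟨(L.map fun v => (w, v)) ++ P', ?_, ?_, ?_, ?_, ?_, ?_⟩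
    · intro q hq
      rcases List.mem_append.1 hq with hq | hq
      · obtain ⟨v, hv, rfl⟩ := List.mem_map.1 hq
        exact hL.reg v hv
      · exact g1 q hq
    · intro q hq
      rcases List.mem_append.1 hq with hq | hq
      · obtain ⟨v, hv, rfl⟩ := List.mem_map.1 hq
        exact Relation.ReflTransGen.refl
      · exact hww'.trans (g2 q hq)
    · refine List.pairwise_append.2 ⟨List.pairwise_map.2
        (List.pairwise_of_forall fun _ _ => Relation.ReflTransGen.refl), g3, ?_⟩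
      intro q hq q' hq'
      obtain ⟨v, hv, rfl⟩ := List.mem_map.1 hq
      exact hww'.trans (g2 q' hq')
    · intro k
      rw [List.take_append, List.map_append, List.sum_append, List.length_map]
      rcases le_total k L.length with hk | hk
      · obtain ⟨s, h1, h2, h3⟩ := hL.part k
        rw [Nat.sub_eq_zero_of_le hk, List.take_zero, List.map_nil, List.sum_nil, add_zero,
          ← List.map_take, pl_vsum_const, h3, pl_pos_add]
        exact hD1 s h1 h2
      · rw [List.take_of_length_le (by rw [List.length_map]; exact hk), pl_vsum_const, ← add_assoc,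
          hmid]
        exact g4 _
    · rw [List.map_append, List.sum_append, pl_vsum_const, ← add_assoc, hmid, g5]
      show _ = (runSw θ ((⟨w.act, c⟩ : SwState n).step θ p.1 p.2) l).pos θ θ.length
      rw [hst]
    · rw [List.map_append, List.sum_append, g6, List.map_map]
      show (L.map fun v => v).sum + _ = _
      rw [List.map_id', hL.sum]
      abel

/-- (K9) time form ⇒ vertex form -/
theorem pl_decpath_vpath (lam xi : Vec n) (θ : Shape n) (hθ : ∀ v ∈ θ, Ty.D.Reg v)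
    (h : HasDecPath Ty.D lam θ xi) :
    ∃ P : List (WD n × Vec n), IsVPath Ty.D lam P xi ∧ (P.map fun a => a.2).sum = θ.sum := by
  obtain ⟨w0, l, hd⟩ := h
  obtain ⟨P, h1, _, h3, h4, h5, h6⟩ := pl_vpath_aux θ hθ l 0 w0 lam le_rfl (Nat.cast_nonneg _)
    hd.times_mem hd.sorted hd.down hd.inDom
  rw [pl_pos_zero] at h4 h5
  refine ⟨P, ⟨fun _ _ => trivial, h1, h3, h4, ?_⟩, ?_⟩
  · rw [h5, hd.endpoint]
  · rw [h6, sc_val_zero, sub_zero]

end Claimed.Agent.R282
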