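import Claimed.Agent.R282.S2AB.PL.Moves
import Claimed.Agent.R282.S2AB.PL.Closed
import Claimed.Agent.R282.S2AB.PL.VPath
import Claimed.Agent.R282.S2AB.PL.Rat

/-!
# Row 282, package PL (architect helper295): summary

| contract of `S2AB/Contracts.lean` | proved as | file |
| K7 `decpath_closed`        | `pl_decpath_closed`      | `PL/Closed.lean` |
| K8 `decpath_smul`          | `pl_decpath_smul`        | `PL/Moves.lean`  |
| K9 `decpath_vpath`         | `pl_decpath_vpath`       | `PL/VPath.lean`  |
| K10' `decpath_regularize`  | `pl_decpath_regularize`  | `PL/Moves.lean`  |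
| K11' `sched_fold_dom`      | `pl_sched_fold_dom`      | `PL/Moves.lean` (from `pl_fold_raw`, `PL/Fold.lean`) |
| K13 `rat_approx`           | `pl_rat_approx`          | `PL/Rat.lean`    |
| K15 `vpath_rat_approx`     | `pl_vpath_rat_approx`    | `PL/Rat.lean`    |
| K16 `shape_reg_open`       | `pl_shape_reg_open`      | `PL/Rat.lean`    |
| K17-K20                    | `pl_reg_dom`, `sc_dom_sum`, `pl_reg_smul_iff`, `pl_dom_smul_iff` | `PL/Basic.lean` |
| K21 `sched_weyl`           | `pl_sched_weyl`          | `PL/Moves.lean`  |
| `col_fold_raw` (Sec. 5)    | `pl_fold_raw` with `P` = integrality | `PL/Fold.lean` |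
-/

namespace Claimed.Agent.R282

theorem pl_main_marker : True := trivial

end Claimed.Agent.R282
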