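import Claimed.Agent.R282.Sched.Block
import Claimed.Agent.R282.S2AB.Defs
import Claimed.Agent.R282.Defs.Dot

/-!
# Row 282, package PL (architect helper295): chambers, frames, potential

All names carry the prefix `pl_`.  Everything is elementary and paper-free.  The lemmas `sc_*` of
`Sched/*.lean` and `dot_*` of `Defs/Dot.lean` may be used as they are (sorried or not).

Conventions: `rho = rhoV n = (n-1, ..., 1, 0)`; a root `β` is POSITIVE iff `0 < dot rho β.vec`, i.e.
`β = e_i ± e_j` with `i < j` (stored in either order).  `Dom x` iff `|x j| ≤ x i` for `i < j`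
iff `0 ≤ dot x β.vec` for all positive `β`.  A frame is `w.act` for some `w : WD n`.

* Leaf L-PL-B1 = section `Chamber`   (case analysis on the two signs of a root, `sc_dot_vec`)
* Leaf L-PL-B2 = section `Frame`     (`sc_frame_root`, `sc_root_sign`)
* Leaf L-PL-B3 = section `Unique`    (fundamental domain)
* Leaf L-PL-B4 = section `Pot`       (potential `(u rho) . rho`)
-/

set_option autoImplicit false

namespace Claimed.Agent.R282

variable {n : ℕ}

/-- two shapes with the same number of pieces and `ε`-close increments -/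
def ShapeNear (ε : ℝ) (θ' θ : Shape n) : Prop :=
  θ'.length = θ.length ∧ ∀ i, dist (θ'.getD i 0) (θ.getD i 0) < ε

section Chamber

theorem pl_rho_nonneg (i : Fin n) : 0 ≤ rhoV n i := by
  have h : ((i : ℕ) : ℝ) + 1 ≤ n := by exact_mod_cast i.2
  unfold rhoV
  linarith

theorem pl_rho_succ_le {i j : Fin n} (h : i < j) : rhoV n j + 1 ≤ rhoV n i := by
  have h' : ((i : ℕ) : ℝ) + 1 ≤ ((j : ℕ) : ℝ) := by exact_mod_cast h
  unfold rhoV
  linarith

/-- a positive root is `e_i ± e_j` with `i < j` -/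
theorem pl_pos_cases (β : RootD n) (h : 0 < dot (rhoV n) β.vec) :
    ∃ (i j : Fin n) (s : Bool), i < j ∧ ∀ x : Vec n, dot x β.vec = x i + sgnB s * x j := by
  rw [sc_dot_vec] at h
  rcases lt_or_gt_of_ne β.ne with hij | hij
  · refine ⟨β.i, β.j, β.sj, hij, fun x => ?_⟩
    have h1 := pl_rho_succ_le hij
    have h2 := pl_rho_nonneg β.j
    rw [sc_dot_vec]
    cases hsi : β.si with
    | false => simp [sgnB]
    | true =>
      exfalso
      rw [hsi] at h
      rcases sc_sgnB_cases β.sj with h3 | h3 <;> rw [h3] at h <;> simp [sgnB] at h <;> linarith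
  · refine ⟨β.j, β.i, β.si, hij, fun x => ?_⟩
    have h1 := pl_rho_succ_le hij
    have h2 := pl_rho_nonneg β.i
    rw [sc_dot_vec]
    cases hsj : β.sj with
    | false => simp [sgnB]; ring
    | true =>
      exfalso
      rw [hsj] at h
      rcases sc_sgnB_cases β.si with h3 | h3 <;> rw [h3] at h <;> simp [sgnB] at h <;> linarith

/-- the positive roots `e_i ± e_j`, `i < j` -/
theorem pl_root_mk {i j : Fin n} (h : i < j) (s : Bool) :
    ∃ β : RootD n, 0 < dot (rhoV n) β.vec ∧ ∀ x : Vec n, dot x β.vec = x i + sgnB s * x j := by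
  have key : ∀ x : Vec n, dot x (⟨i, j, h.ne, false, s⟩ : RootD n).vec = x i + sgnB s * x j := by
    intro x
    rw [sc_dot_vec]
    simp [sgnB]
  refine ⟨⟨i, j, h.ne, false, s⟩, ?_, key⟩
  rw [key]
  have h1 := pl_rho_succ_le h
  have h2 := pl_rho_nonneg j
  rcases sc_sgnB_cases s with h3 | h3 <;> rw [h3] <;> linarith

theorem pl_opp_rho (β : RootD n) : dot (rhoV n) β.opp.vec = - dot (rhoV n) β.vec := by
  rw [sc_neg_vec, sc_dot_neg_right]

theorem pl_rho_vec_ne (β : RootD n) : dot (rhoV n) β.vec ≠ 0 := by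
  rw [sc_dot_vec]
  have h2 := pl_rho_nonneg β.j
  have h2' := pl_rho_nonneg β.i
  rcases lt_or_gt_of_ne β.ne with hij | hij
  · have h1 := pl_rho_succ_le hij
    rcases sc_sgnB_cases β.si with h3 | h3 <;> rcases sc_sgnB_cases β.sj with h4 | h4 <;>
      rw [h3, h4] <;> intro h <;> linarith
  · have h1 := pl_rho_succ_le hij
    rcases sc_sgnB_cases β.si with h3 | h3 <;> rcases sc_sgnB_cases β.sj with h4 | h4 <;>
      rw [h3, h4] <;> intro h <;> linarith

theorem pl_pos_iff (β : RootD n) : β.Pos ↔ 0 < dot (rhoV n) β.vec := by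
  unfold RootD.Pos
  rw [sc_dot_comm]

theorem pl_dom_iff (x : Vec n) :
    Dom x ↔ ∀ β : RootD n, 0 < dot (rhoV n) β.vec → 0 ≤ dot x β.vec := by
  constructor
  · intro hx β hβ
    obtain ⟨i, j, s, hij, h⟩ := pl_pos_cases β hβ
    rw [h]
    have h1 := abs_le.1 (hx i j hij)
    rcases sc_sgnB_cases s with h3 | h3 <;> rw [h3] <;> linarith
  · intro h i j hij
    obtain ⟨β, hβ, hb⟩ := pl_root_mk hij false
    obtain ⟨γ, hγ, hc⟩ := pl_root_mk hij true
    have h1 := h β hβ
    have h2 := h γ hγ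
    rw [hb] at h1
    rw [hc] at h2
    simp only [sgnB] at h1 h2
    rw [abs_le]
    constructor <;> simp at h1 h2 <;> linarith

theorem pl_reg_iff (x : Vec n) :
    Ty.D.Reg x ↔ ∀ β : RootD n, 0 < dot (rhoV n) β.vec → 0 < dot x β.vec := by
  constructor
  · intro hx β hβ
    obtain ⟨i, j, s, hij, h⟩ := pl_pos_cases β hβ
    rw [h]
    have h1 := abs_lt.1 (hx i j hij)
    rcases sc_sgnB_cases s with h3 | h3 <;> rw [h3] <;> linarith
  · intro h i j hij
    obtain ⟨β, hβ, hb⟩ := pl_root_mk hij false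
    obtain ⟨γ, hγ, hc⟩ := pl_root_mk hij true
    have h1 := h β hβ
    have h2 := h γ hγ
    rw [hb] at h1
    rw [hc] at h2
    simp only [sgnB] at h1 h2
    rw [abs_lt]
    constructor <;> simp at h1 h2 <;> linarith

theorem pl_rho_reg : Ty.D.Reg (rhoV n) := (pl_reg_iff _).2 fun _ h => h

theorem pl_reg_dom (x : Vec n) (h : Ty.D.Reg x) : Dom x := fun i j hij => (h i j hij).le

theorem pl_rho_dom : Dom (rhoV n) := pl_reg_dom _ pl_rho_reg

theorem pl_dom_zero : Dom (0 : Vec n) := by
  intro i j _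
  simp

theorem pl_dom_add (x y : Vec n) (hx : Dom x) (hy : Dom y) : Dom (x + y) := by
  rw [pl_dom_iff] at *
  intro β hβ
  rw [sc_dot_add_left]
  exact add_nonneg (hx β hβ) (hy β hβ)

theorem pl_dom_smul_of_nonneg (r : ℝ) (hr : 0 ≤ r) (x : Vec n) (hx : Dom x) : Dom (r • x) := by
  rw [pl_dom_iff] at *
  intro β hβ
  rw [sc_dot_smul_left]
  exact mul_nonneg hr (hx β hβ)

theorem pl_reg_add_dom (x y : Vec n) (hx : Ty.D.Reg x) (hy : Dom y) : Ty.D.Reg (x + y) := by
  rw [pl_reg_iff] at *
  rw [pl_dom_iff] at hy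
  intro β hβ
  rw [sc_dot_add_left]
  exact add_pos_of_pos_of_nonneg (hx β hβ) (hy β hβ)

theorem pl_dom_add_reg (x y : Vec n) (hx : Dom x) (hy : Ty.D.Reg y) : Ty.D.Reg (x + y) := by
  rw [add_comm]
  exact pl_reg_add_dom y x hy hx

theorem pl_reg_smul_iff (x : Vec n) (r : ℝ) (hr : 0 < r) : Ty.D.Reg (r • x) ↔ Ty.D.Reg x := by
  rw [pl_reg_iff, pl_reg_iff]
  refine forall_congr' fun β => imp_congr_right fun _ => ?_
  rw [sc_dot_smul_left]
  exact mul_pos_iff_of_pos_left hr

theorem pl_dom_smul_iff (x : Vec n) (r : ℝ) (hr : 0 < r) : Dom (r • x) ↔ Dom x := by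
  rw [pl_dom_iff, pl_dom_iff]
  refine forall_congr' fun β => imp_congr_right fun _ => ?_
  rw [sc_dot_smul_left]
  exact mul_nonneg_iff_of_pos_left hr

/-- a root that is positive somewhere on the closed chamber is a positive root -/
theorem pl_pos_of_dom (x : Vec n) (hx : Dom x) (γ : RootD n) (h : 0 < dot x γ.vec) :
    0 < dot (rhoV n) γ.vec := by
  rcases lt_or_gt_of_ne (pl_rho_vec_ne γ) with h1 | h1
  · exfalso
    have h2 := (pl_dom_iff x).1 hx γ.opp (by rw [pl_opp_rho]; linarith)
    rw [sc_neg_vec, sc_dot_neg_right] at h2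
    linarith
  · exact h1

theorem pl_isClosed_dom : IsClosed {x : Vec n | Dom x} := by
  simp only [Dom, Set.ofPred_forall]
  exact isClosed_iInter fun i => isClosed_iInter fun j => isClosed_iInter fun _ =>
    isClosed_le (continuous_abs.comp (continuous_apply j)) (continuous_apply i)

theorem pl_isOpen_reg : IsOpen {x : Vec n | Ty.D.Reg x} := by
  simp only [Ty.Reg, Set.ofPred_forall]
  exact isOpen_iInter_of_finite fun i => isOpen_iInter_of_finite fun j =>
    isOpen_iInter_of_finite fun _ =>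
      isOpen_lt (continuous_abs.comp (continuous_apply j)) (continuous_apply i)

/-- quantitative openness (sup metric on `Fin n → ℝ`) -/
theorem pl_reg_ball (x : Vec n) (hx : Ty.D.Reg x) :
    ∃ r > 0, ∀ y : Vec n, dist y x < r → Ty.D.Reg y := by
  obtain ⟨r, hr, h⟩ := Metric.isOpen_iff.1 pl_isOpen_reg x hx
  exact ⟨r, hr, fun y hy => h hy⟩

/-- increments of a dominant shape are dominant -/
theorem pl_val_sub_dom (θ : Shape n) (hθ : ∀ v ∈ θ, Dom v) (s t : ℝ) (hst : s ≤ t) :
    Dom (θ.val t - θ.val s) := by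
  induction θ generalizing s t with
  | nil =>
    show Dom ((0 : Vec n) - 0)
    rw [sub_zero]
    exact pl_dom_zero
  | cons v θ ih =>
    have e : Shape.val (v :: θ) t - Shape.val (v :: θ) s
        = (max 0 (min t 1) - max 0 (min s 1)) • v
          + (Shape.val θ (t - 1) - Shape.val θ (s - 1)) := by
      show (max 0 (min t 1)) • v + Shape.val θ (t - 1)
        - ((max 0 (min s 1)) • v + Shape.val θ (s - 1)) = _
      module
    rw [e]
    refine pl_dom_add _ _ (pl_dom_smul_of_nonneg _ ?_ v (hθ v List.mem_cons_self))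
      (ih (fun u hu => hθ u (List.mem_cons_of_mem _ hu)) _ _ (by linarith))
    have : max 0 (min s 1) ≤ max 0 (min t 1) := max_le_max le_rfl (min_le_min hst le_rfl)
    linarith

theorem pl_norm_rho_le : ‖rhoV n‖ ≤ n := by
  rw [pi_norm_le_iff_of_nonneg (Nat.cast_nonneg n)]
  intro i
  rw [Real.norm_eq_abs, abs_of_nonneg (pl_rho_nonneg i)]
  unfold rhoV
  have : (0 : ℝ) ≤ ((i : ℕ) : ℝ) := Nat.cast_nonneg _
  linarith

end Chamber

section Frame

theorem pl_frame_rho_ne (f : Vec n → Vec n) (hf : IsFrame f) (α : RootD n) :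
    dot (f (rhoV n)) α.vec ≠ 0 := by
  obtain ⟨γ, hγ⟩ := sc_frame_root f hf α
  rw [sc_dot_comm, hγ, sc_dot_comm]
  exact pl_rho_vec_ne γ

/-- `u⁻¹ α < 0` : `α` is `≤ 0` on the image of the chamber -/
theorem pl_frame_nonpos (f : Vec n → Vec n) (hf : IsFrame f) (α : RootD n)
    (h : dot (f (rhoV n)) α.vec < 0) (d : Vec n) (hd : Dom d) : dot (f d) α.vec ≤ 0 := by
  obtain ⟨γ, hγ⟩ := sc_frame_root f hf α
  rw [sc_dot_comm, hγ] at h ⊢
  rcases sc_root_sign γ with h1 | h1
  · exact absurd (h1 _ pl_rho_dom) (not_le.2 h)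
  · exact h1 d hd

theorem pl_frame_nonneg (f : Vec n → Vec n) (hf : IsFrame f) (α : RootD n)
    (h : 0 < dot (f (rhoV n)) α.vec) (d : Vec n) (hd : Dom d) : 0 ≤ dot (f d) α.vec := by
  obtain ⟨γ, hγ⟩ := sc_frame_root f hf α
  rw [sc_dot_comm, hγ] at h ⊢
  rcases sc_root_sign γ with h1 | h1
  · exact h1 d hd
  · exact absurd (h1 _ pl_rho_dom) (not_le.2 h)

theorem pl_frame_neg_of (f : Vec n → Vec n) (hf : IsFrame f) (α : RootD n) (d : Vec n)
    (hd : Dom d) (h : dot (f d) α.vec < 0) : dot (f (rhoV n)) α.vec < 0 := by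
  rcases lt_or_gt_of_ne (pl_frame_rho_ne f hf α) with h1 | h1
  · exact h1
  · exact absurd (pl_frame_nonneg f hf α h1 d hd) (not_le.2 h)

theorem pl_abs_dot_vec_le (x : Vec n) (β : RootD n) : |dot x β.vec| ≤ 2 * ‖x‖ := by
  rw [sc_dot_vec]
  have h1 : |x β.i| ≤ ‖x‖ := norm_le_pi_norm x β.i
  have h2 : |x β.j| ≤ ‖x‖ := norm_le_pi_norm x β.j
  have h3 : ∀ b : Bool, |sgnB b| = 1 := fun b => by
    rcases sc_sgnB_cases b with h | h <;> rw [h] <;> simp
  calc |sgnB β.si * x β.i + sgnB β.sj * x β.j|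
      ≤ |sgnB β.si * x β.i| + |sgnB β.sj * x β.j| := abs_add_le _ _
    _ = |x β.i| + |x β.j| := by rw [abs_mul, abs_mul, h3, h3, one_mul, one_mul]
    _ ≤ 2 * ‖x‖ := by linarith

theorem pl_frame_rho_abs_le (f : Vec n → Vec n) (hf : IsFrame f) (α : RootD n) :
    |dot (f (rhoV n)) α.vec| ≤ 2 * n := by
  obtain ⟨γ, hγ⟩ := sc_frame_root f hf α
  rw [sc_dot_comm, hγ, sc_dot_comm]
  have := pl_abs_dot_vec_le (rhoV n) γ
  have h2 := pl_norm_rho_le (n := n)
  linarith

/-- positive roots pair to at least `1` with `rho` -/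
theorem pl_one_le_rho (β : RootD n) (h : 0 < dot (rhoV n) β.vec) : 1 ≤ dot (rhoV n) β.vec := by
  obtain ⟨i, j, s, hij, hx⟩ := pl_pos_cases β h
  rw [hx]
  have h1 := pl_rho_succ_le hij
  have h2 := pl_rho_nonneg j
  rcases sc_sgnB_cases s with h3 | h3 <;> rw [h3] <;> linarith

theorem pl_frame_norm (f : Vec n → Vec n) (hf : IsFrame f) (x : Vec n) : ‖f x‖ = ‖x‖ := by
  obtain ⟨w, rfl⟩ := hf
  have h3 : ∀ b : Bool, |sgnB b| = 1 := fun b => by
    rcases sc_sgnB_cases b with h | h <;> rw [h] <;> simp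
  apply le_antisymm
  · rw [pi_norm_le_iff_of_nonneg (norm_nonneg x)]
    intro i
    show ‖sgnB (w.s i) * x (w.σ.symm i)‖ ≤ ‖x‖
    rw [Real.norm_eq_abs, abs_mul, h3, one_mul]
    exact norm_le_pi_norm x _
  · rw [pi_norm_le_iff_of_nonneg (norm_nonneg _)]
    intro i
    have h1 : ‖w.act x (w.σ i)‖ ≤ ‖w.act x‖ := norm_le_pi_norm _ _
    have h2 : w.act x (w.σ i) = sgnB (w.s (w.σ i)) * x i := by
      show sgnB (w.s (w.σ i)) * x (w.σ.symm (w.σ i)) = _
      rw [Equiv.symm_apply_apply]
    rw [h2, Real.norm_eq_abs, abs_mul, h3, one_mul] at h1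
    exact h1

/-- signed permutations are isometries of the sup metric -/
theorem pl_frame_dist (f : Vec n → Vec n) (hf : IsFrame f) (x y : Vec n) :
    dist (f x) (f y) = dist x y := by
  rw [dist_eq_norm, dist_eq_norm, ← (sc_isFrame_linear f hf).map_sub, pl_frame_norm f hf]

theorem pl_frame_continuous (f : Vec n → Vec n) (hf : IsFrame f) : Continuous f := by
  obtain ⟨w, rfl⟩ := hf
  exact continuous_pi fun i => continuous_const.mul (continuous_apply _)

theorem pl_isFrame_comp (f g : Vec n → Vec n) (hf : IsFrame f) (hg : IsFrame g) :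
    IsFrame (fun x => f (g x)) := by
  obtain ⟨u, rfl⟩ := hf
  obtain ⟨v, rfl⟩ := hg
  obtain ⟨w, hw⟩ := sc_WD_mul u v
  exact ⟨w, funext fun x => (hw x).symm⟩

/-- integral vectors are preserved -/
theorem pl_act_castV (w : WD n) (p : Fin n → ℤ) : ∃ q : Fin n → ℤ, w.act (castV p) = castV q := by
  refine ⟨fun i => (if w.s i then -1 else 1) * p (w.σ.symm i), funext fun i => ?_⟩
  show sgnB (w.s i) * ((p (w.σ.symm i) : ℤ) : ℝ) = (((if w.s i then -1 else 1) * p (w.σ.symm i) : ℤ) : ℝ)
  cases w.s i <;> simp [sgnB]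

end Frame

section Pot

/-- the potential `(u rho) . rho` -/
def plPot (f : Vec n → Vec n) : ℝ := dot (f (rhoV n)) (rhoV n)

/-- a downward reflection increases the potential -/
theorem pl_pot_lt (f : Vec n → Vec n) (β : RootD n) (hβ : 0 < dot (rhoV n) β.vec)
    (h : dot (f (rhoV n)) β.vec < 0) : plPot f < plPot (fun x => refl β (f x)) := by
  unfold plPot refl
  rw [sc_dot_sub_left, sc_dot_smul_left, sc_dot_comm β.vec]
  nlinarith [mul_pos (neg_pos.2 h) hβ]

/-- number of potential values of frames strictly above the potential of `f` -/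
noncomputable def plDef (f : Vec n → Vec n) : ℕ :=
  Set.ncard {r : ℝ | (∃ w : WD n, r = plPot w.act) ∧ plPot f < r}

theorem pl_def_finite (f : Vec n → Vec n) :
    {r : ℝ | (∃ w : WD n, r = plPot w.act) ∧ plPot f < r}.Finite := by
  have := sc_finite_WD (n := n)
  refine (Set.finite_range fun w : WD n => plPot w.act).subset ?_
  rintro r ⟨⟨w, rfl⟩, _⟩
  exact ⟨w, rfl⟩

theorem pl_def_lt (f g : Vec n → Vec n) (hg : IsFrame g) (h : plPot f < plPot g) :
    plDef g < plDef f := by
  obtain ⟨w, rfl⟩ := hg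
  refine Set.ncard_lt_ncard ?_ (pl_def_finite f)
  refine ⟨fun r hr => ⟨hr.1, h.trans hr.2⟩, fun hsub => ?_⟩
  have hm : plPot w.act ∈ {r : ℝ | (∃ w : WD n, r = plPot w.act) ∧ plPot f < r} := ⟨⟨w, rfl⟩, h⟩
  exact lt_irrefl _ (hsub hm).2

theorem pl_def_step_lt (f : Vec n → Vec n) (hf : IsFrame f) (β : RootD n)
    (hβ : 0 < dot (rhoV n) β.vec) (h : dot (f (rhoV n)) β.vec < 0) :
    plDef (fun x => refl β (f x)) < plDef f :=
  pl_def_lt _ _ (sc_isFrame_refl f hf β) (pl_pot_lt f β hβ h)

theorem pl_def_le (f : Vec n → Vec n) : plDef f ≤ Nat.card (WD n) := by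
  have := sc_finite_WD (n := n)
  calc plDef f ≤ (Set.range fun w : WD n => plPot w.act).ncard := by
        refine Set.ncard_le_ncard ?_ (Set.finite_range _)
        rintro r ⟨⟨w, rfl⟩, _⟩
        exact ⟨w, rfl⟩
    _ = ((fun w : WD n => plPot w.act) '' Set.univ).ncard := by rw [Set.image_univ]
    _ ≤ (Set.univ : Set (WD n)).ncard := Set.ncard_image_le Set.finite_univ
    _ = Nat.card (WD n) := Set.ncard_univ _

/-- a chain of downward reflections is short -/
theorem pl_down_length (θ : Shape n) (S : SwState n) (hS : IsFrame S.frame)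
    (l : List (ℝ × RootD n)) (h : SwDown θ S l) : l.length ≤ plDef S.frame := by
  induction l generalizing S with
  | nil => simp
  | cons p l ih =>
    obtain ⟨h1, h2, h3⟩ := h
    have := ih (S.step θ p.1 p.2) (sc_isFrame_refl S.frame hS p.2) h3
    have h4 : plDef (S.step θ p.1 p.2).frame < plDef S.frame := pl_def_step_lt S.frame hS p.2 h1 h2
    simp only [List.length_cons]
    omega

/-- `SwDown` does not see the shape, the times and the translation part -/
theorem pl_down_congr (θ θ' : Shape n) (S S' : SwState n) (hS : S.frame = S'.frame)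
    (l l' : List (ℝ × RootD n)) (hl : l.map Prod.snd = l'.map Prod.snd) (h : SwDown θ S l) :
    SwDown θ' S' l' := by
  induction l generalizing S S' l' with
  | nil =>
    cases l' with
    | nil => trivial
    | cons q l' => simp at hl
  | cons p l ih =>
    cases l' with
    | nil => simp at hl
    | cons q l' =>
      simp only [List.map_cons, List.cons.injEq] at hl
      obtain ⟨h1, h2, h3⟩ := h
      refine ⟨hl.1 ▸ h1, ?_, ih (S.step θ p.1 p.2) (S'.step θ' q.1 q.2) ?_ l' hl.2 h3⟩
      · rw [← hS, ← hl.1]; exact h2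
      · show (fun x => refl p.2 (S.frame x)) = fun x => refl q.2 (S'.frame x)
        rw [hS, hl.1]

end Pot

section Unique

/-- a Weyl element that keeps `rho` in the closed chamber is the identity -/
theorem pl_act_eq_of_dom_rho (w : WD n) (h : Dom (w.act (rhoV n))) (x : Vec n) : w.act x = x := by
  have hz : ∀ i, w.act (rhoV n) i = sgnB (w.s i) * rhoV n (w.σ.symm i) := fun i => rfl
  have h3 : ∀ b : Bool, |sgnB b| = 1 := fun b => by
    rcases sc_sgnB_cases b with h | h <;> rw [h] <;> simp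
  have habs : ∀ i, |w.act (rhoV n) i| = rhoV n (w.σ.symm i) := fun i => by
    rw [hz, abs_mul, h3, one_mul, abs_of_nonneg (pl_rho_nonneg _)]
  have hmono : StrictMono (fun i => w.σ.symm i) := by
    intro i j hij
    have h1 : rhoV n (w.σ.symm j) ≤ rhoV n (w.σ.symm i) := by
      rw [← habs, ← habs]
      exact (h i j hij).trans (le_abs_self _)
    rcases lt_trichotomy (w.σ.symm i) (w.σ.symm j) with h2 | h2 | h2
    · exact h2
    · exact absurd (w.σ.symm.injective h2) hij.ne
    · have := pl_rho_succ_le h2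
      linarith
  have hσ : ∀ i, w.σ.symm i = i := by
    have := (hmono.range_inj strictMono_id).1
      (by rw [Set.range_id]; exact w.σ.symm.surjective.range_eq)
    exact fun i => congrFun this i
  have hlast : ∀ i j : Fin n, i < j → w.s i = false := by
    intro i j hij
    by_contra hs
    have hs' : w.s i = true := by simpa using hs
    have h1 := (abs_nonneg _).trans (h i j hij)
    rw [hz, hσ, hs'] at h1
    have h2 := pl_rho_succ_le hij
    have h4 := pl_rho_nonneg j
    simp only [sgnB, if_true] at h1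
    linarith
  have hs : ∀ i, w.s i = false := by
    intro i
    by_contra hs
    have hs' : w.s i = true := by simpa using hs
    have hF : (Finset.univ.filter fun k => w.s k = true) = {i} := by
      ext k
      simp only [Finset.mem_filter, Finset.mem_univ, true_and, Finset.mem_singleton]
      constructor
      · intro hk
        rcases lt_trichotomy k i with h2 | h2 | h2
        · rw [hlast k i h2] at hk; exact absurd hk (by simp)
        · exact h2
        · rw [hlast i k h2] at hs'; exact absurd hs' (by simp)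
      · rintro rfl
        exact hs'
    have := w.even
    rw [hF, Finset.card_singleton] at this
    exact absurd this (by decide)
  funext i
  show sgnB (w.s i) * x (w.σ.symm i) = x i
  rw [hs, hσ]
  simp [sgnB]

theorem pl_dot_frame_le (N : ℕ) : ∀ f : Vec n → Vec n, IsFrame f → plDef f ≤ N →
    ∀ x y : Vec n, Dom x → Dom y → dot (f x) y ≤ dot x y := by
  induction N using Nat.strong_induction_on with
  | _ N ih =>
  intro f hf hN x y hx hy
  by_cases hd : ∃ β : RootD n, 0 < dot (rhoV n) β.vec ∧ dot (f (rhoV n)) β.vec < 0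
  · obtain ⟨β, hβ, hneg⟩ := hd
    have hlt := pl_def_step_lt f hf β hβ hneg
    have h1 := ih (plDef fun x => refl β (f x)) (by omega) _ (sc_isFrame_refl f hf β) le_rfl x y
      hx hy
    have h2 : dot (refl β (f x)) y = dot (f x) y - dot (f x) β.vec * dot y β.vec := by
      unfold refl
      rw [sc_dot_sub_left, sc_dot_smul_left, sc_dot_comm β.vec]
    have h3 := pl_frame_nonpos f hf β hneg x hx
    have h4 := (pl_dom_iff y).1 hy β hβ
    have h5 : dot (f x) β.vec * dot y β.vec ≤ 0 := mul_nonpos_of_nonpos_of_nonneg h3 h4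
    rw [h2] at h1
    linarith
  · obtain ⟨w, rfl⟩ := hf
    have hdom : Dom (w.act (rhoV n)) := by
      rw [pl_dom_iff]
      intro β hβ
      by_contra hlt
      exact hd ⟨β, hβ, not_le.1 hlt⟩
    rw [pl_act_eq_of_dom_rho w hdom]

/-- rearrangement inequality -/
theorem pl_dot_act_le (w : WD n) (x y : Vec n) (hx : Dom x) (hy : Dom y) :
    dot (w.act x) y ≤ dot x y :=
  pl_dot_frame_le _ w.act ⟨w, rfl⟩ le_rfl x y hx hy

/-- the closed chamber is a fundamental domain.  `z = w x`; `|z|² = dot (w x) z ≤ dot x z`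
(`pl_dot_act_le`), `|z|² = |x|²`, so `|x - z|² ≤ 0`. -/
theorem pl_dom_unique (w : WD n) (x : Vec n) (hx : Dom x) (hw : Dom (w.act x)) : w.act x = x := by
  have h1 := pl_dot_act_le w x (w.act x) hx hw
  have h2 := sc_dot_WD_act w x x
  have h3 : dot (x - w.act x) (x - w.act x) ≤ 0 := by
    rw [sc_dot_sub_left, sc_dot_sub_right, sc_dot_sub_right, sc_dot_comm (w.act x) x]
    linarith
  have h4 := (sc_dot_self_eq_zero _).1 (le_antisymm h3 (sc_dot_self_nonneg _))
  exact (sub_eq_zero.1 h4).symm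

end Unique

end Claimed.Agent.R282
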