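import Claimed.Agent.R282.S2AB.PL.Fold

/-!
# Row 282, package PL: Weyl action (K21), scaling (K8), regularisation of the shape (K10'), K11'

* Leaf L-PL-M1 = `pl_sched_weyl` (K21)
* Leaf L-PL-M2 = `pl_decpath_smul` (K8)
* Leaf L-PL-M3 = section `Shift`  (values of a shifted shape)
* Leaf L-PL-M4 = `pl_shift_inDom`, `pl_shift_dist` (the two inductions of K10')
* Leaf L-PL-M5 = `pl_decpath_regularize` (K10', assembly: choice of `e`)
-/

set_option autoImplicit false

namespace Claimed.Agent.R282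

variable {n : ℕ}

/-- type `D`: `IsSched` is `IsSchedule` -/
theorem pl_isSched_iff (lam xi : Vec n) (θ : Shape n) (w0 : WD n) (l : List (ℝ × RootD n)) :
    IsSched Ty.D lam θ xi w0 l ↔ IsSchedule lam θ xi w0 l := by
  constructor
  · intro h
    obtain ⟨w, _, hw⟩ := h.endpoint
    exact ⟨h.times_mem, h.sorted, h.valid, ⟨w, hw⟩⟩
  · intro h
    obtain ⟨w, hw⟩ := h.endpoint
    exact ⟨trivial, fun _ _ => trivial, h.times_mem, h.sorted, h.valid, ⟨w, trivial, hw⟩⟩

/-- (K11') direct folding of a real schedule -/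
theorem pl_sched_fold_dom (lam xi : Vec n) (θ : Shape n) (hθ : ∀ v ∈ θ, Ty.D.Dom v)
    (hl : Ty.D.Dom lam) (hx : Ty.D.Dom xi) (h : HasSched Ty.D lam θ xi) :
    HasDecPath Ty.D lam θ xi := by
  obtain ⟨w0, l, hs⟩ := h
  obtain ⟨l', hd, _⟩ := pl_fold_raw (fun _ => True) lam xi θ hθ hl hx w0 l
    ((pl_isSched_iff _ _ _ _ _).1 hs) (pl_allC_true _ _ _)
  exact ⟨w0, l', hd⟩

/-- (K21).  PLAN: `w₁`, `w₂` from `sc_exists_dom`.  New initial frame `w₁ w0` (`sc_WD_mul`), new list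
`mapSw w₁.toWB l`.  `(⟨w0.act, lam⟩ : SwState n).mapB w₁.toWB = ⟨(w₁ w0).act, w₁.act lam⟩` (funext), then
`sc_equiv_valid`, `sc_equiv_run`, `sc_equiv_pos`; times are unchanged by `mapSw` (`List.pairwise_map`, `List.mem_map`);
endpoint `w₁ (w xi) = (w₁ w w₂⁻¹) (w₂ xi)` (`sc_WD_mul`, `sc_WD_inv`). -/
theorem pl_sched_weyl (lam xi : Vec n) (θ : Shape n) (h : HasSched Ty.D lam θ xi) :
    ∃ w₁ w₂ : WD n, Ty.D.Dom (w₁.act lam) ∧ Ty.D.Dom (w₂.act xi) ∧
      HasSched Ty.D (w₁.act lam) θ (w₂.act xi) := by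
  obtain ⟨w0, l, hs⟩ := h
  obtain ⟨w₁, h1⟩ := sc_exists_dom lam
  obtain ⟨w₂, h2⟩ := sc_exists_dom xi
  obtain ⟨w0', hw0'⟩ := sc_WD_mul w₁ w0
  have hst : (⟨w0'.act, w₁.act lam⟩ : SwState n) = (⟨w0.act, lam⟩ : SwState n).mapB w₁.toWB := by
    show _ = (⟨fun x => w₁.act (w0.act x), w₁.act lam⟩ : SwState n)
    congr 1
    funext x
    exact hw0' x
  refine ⟨w₁, w₂, h1, h2, w0', mapSw w₁.toWB l, trivial, fun _ _ => trivial, ?_, ?_, ?_, ?_⟩
  · intro p hp
    obtain ⟨q, hq, rfl⟩ := List.mem_map.1 hp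
    exact hs.times_mem q hq
  · exact List.pairwise_map.2 hs.sorted
  · rw [hst]
    exact (sc_equiv_valid θ w₁.toWB _ l).2 hs.valid
  · obtain ⟨w, _, hw⟩ := hs.endpoint
    obtain ⟨k, hk1, _⟩ := sc_WD_inv w₂
    obtain ⟨a, ha⟩ := sc_WD_mul w k
    obtain ⟨b, hb⟩ := sc_WD_mul w₁ a
    refine ⟨b, trivial, ?_⟩
    rw [hst, sc_equiv_run, sc_equiv_pos, hw, hb, ha, hk1]
    rfl

/-- scaling of a state -/
def plScale (r : ℝ) (S : SwState n) : SwState n := ⟨S.frame, r • S.c⟩

theorem pl_scale_val (θ : Shape n) (r t : ℝ) :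
    Shape.val (θ.map fun v => r • v) t = r • θ.val t :=
  sc_val_map θ (fun v => r • v) ⟨smul_add r, fun c x => smul_comm r c x⟩ t

theorem pl_scale_pos (θ : Shape n) (r : ℝ) (S : SwState n) (hS : IsFrame S.frame) (t : ℝ) :
    (plScale r S).pos (θ.map fun v => r • v) t = r • S.pos θ t := by
  show r • S.c + S.frame (Shape.val (θ.map fun v => r • v) t) = r • (S.c + S.frame (θ.val t))
  rw [pl_scale_val, (sc_isFrame_linear _ hS).map_smul, smul_add]

theorem pl_scale_step (θ : Shape n) (r : ℝ) (S : SwState n) (hS : IsFrame S.frame) (t : ℝ)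
    (β : RootD n) :
    (plScale r S).step (θ.map fun v => r • v) t β = plScale r (S.step θ t β) := by
  show (⟨fun x => refl β (S.frame x),
      r • S.c - (- dot β.vec (S.frame (Shape.val (θ.map fun v => r • v) t))) • β.vec⟩ : SwState n)
    = ⟨fun x => refl β (S.frame x), r • (S.c - (- dot β.vec (S.frame (θ.val t))) • β.vec)⟩
  rw [pl_scale_val, (sc_isFrame_linear _ hS).map_smul, sc_dot_smul_right]
  congr 1
  module

theorem pl_scale_run (θ : Shape n) (r : ℝ) (l : List (ℝ × RootD n)) (S : SwState n)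
    (hS : IsFrame S.frame) :
    runSw (θ.map fun v => r • v) (plScale r S) l = plScale r (runSw θ S l) := by
  induction l generalizing S with
  | nil => rfl
  | cons p l ih =>
    show runSw _ ((plScale r S).step _ p.1 p.2) l = plScale r (runSw θ (S.step θ p.1 p.2) l)
    rw [pl_scale_step θ r S hS, ih _ (sc_isFrame_refl S.frame hS p.2)]

theorem pl_scale_inDom (θ : Shape n) (r : ℝ) (hr : 0 ≤ r) (l : List (ℝ × RootD n)) (a : ℝ)
    (S : SwState n) (hS : IsFrame S.frame) (h : SwInDom Ty.D θ a S l) :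
    SwInDom Ty.D (θ.map fun v => r • v) a (plScale r S) l := by
  induction l generalizing S a with
  | nil =>
    intro t h1 h2
    rw [List.length_map] at h2
    rw [pl_scale_pos θ r S hS]
    exact pl_dom_smul_of_nonneg r hr _ (h t h1 h2)
  | cons p l ih =>
    refine ⟨fun t h1 h2 => ?_, ?_⟩
    · rw [pl_scale_pos θ r S hS]
      exact pl_dom_smul_of_nonneg r hr _ (h.1 t h1 h2)
    · rw [pl_scale_step θ r S hS]
      exact ih p.1 _ (sc_isFrame_refl S.frame hS p.2) h.2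

/-- (K8).  PLAN: same `w0`, same `l`.  By induction on `l`, generalising the state `S` (with `IsFrame S.frame`, so
`S.frame` is linear) and the starting time: with `S_r = ⟨S.frame, r • S.c⟩`, `θ_r = θ.map (r • ·)`:
`θ_r.val t = r • θ.val t` (`sc_val_map`), `S_r.pos θ_r t = r • S.pos θ t`, `S_r.step θ_r t β = (S.step θ t β)_r`;
`SwDown` by `pl_down_congr`; `Dom (r • x)` by `pl_dom_smul_of_nonneg`; `θ_r.length = θ.length`. -/
theorem pl_decpath_smul (lam xi : Vec n) (θ : Shape n) (r : ℝ) (hr : 0 < r)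
    (h : HasDecPath Ty.D lam θ xi) :
    HasDecPath Ty.D (r • lam) (θ.map fun v => r • v) (r • xi) := by
  obtain ⟨w0, l, hd⟩ := h
  have hlen : ((θ.map fun v => r • v).length : ℝ) = θ.length := by rw [List.length_map]
  refine ⟨w0, l, trivial, fun _ _ => trivial, ?_, hd.sorted,
    pl_down_congr θ _ ⟨w0.act, lam⟩ ⟨w0.act, r • lam⟩ rfl l l rfl hd.down, ?_, ?_⟩
  · intro p hp
    rw [hlen]
    exact hd.times_mem p hp
  · exact pl_scale_inDom θ r hr.le l 0 ⟨w0.act, lam⟩ ⟨w0, rfl⟩ hd.inDom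
  · have h1 := pl_scale_run θ r l ⟨w0.act, lam⟩ ⟨w0, rfl⟩
    have h2 : plScale r (⟨w0.act, lam⟩ : SwState n) = ⟨w0.act, r • lam⟩ := rfl
    rw [h2] at h1
    rw [h1, hlen, pl_scale_pos θ r _ (sc_isFrame_runSw θ _ ⟨w0, rfl⟩ l), hd.endpoint]

section Shift

/-- add `v` to every increment -/
def Shape.plShift (θ : Shape n) (v : Vec n) : Shape n := θ.map (fun x => x + v)

theorem pl_shift_length (θ : Shape n) (v : Vec n) : (θ.plShift v).length = θ.length := by
  simp [Shape.plShift]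

theorem pl_shift_sum (θ : Shape n) (v : Vec n) :
    (θ.plShift v).sum = θ.sum + (θ.length : ℝ) • v := by
  induction θ with
  | nil => simp [Shape.plShift]
  | cons u θ ih =>
    have e : Shape.plShift (u :: θ) v = (u + v) :: Shape.plShift θ v := rfl
    rw [e, List.sum_cons, List.sum_cons, ih, List.length_cons]
    push_cast
    module

theorem pl_clamp_add (t L : ℝ) (hL : 0 ≤ L) :
    max 0 (min t 1) + max 0 (min (t - 1) L) = max 0 (min t (L + 1)) := by
  rcases le_total t 0 with h | h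
  · rw [max_eq_left (min_le_of_left_le h), max_eq_left (min_le_of_left_le (by linarith)),
      max_eq_left (min_le_of_left_le h), add_zero]
  · rcases le_total t 1 with h1 | h1
    · rw [min_eq_left h1, max_eq_right h, max_eq_left (min_le_of_left_le (by linarith)),
        min_eq_left (by linarith), max_eq_right h, add_zero]
    · rw [min_eq_right h1, max_eq_right zero_le_one,
        max_eq_right (le_min (by linarith) hL)]
      rcases le_total (t - 1) L with h2 | h2
      · rw [min_eq_left h2, min_eq_left (by linarith), max_eq_right h]; ring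
      · rw [min_eq_right h2, min_eq_right (by linarith), max_eq_right (by linarith)]; ring

/-- induction on `θ` (generalising `t`) -/
theorem pl_shift_val (θ : Shape n) (v : Vec n) (t : ℝ) :
    (θ.plShift v).val t = θ.val t + (max 0 (min t θ.length)) • v := by
  induction θ generalizing t with
  | nil =>
    show (0 : Vec n) = 0 + (max 0 (min t ((0 : ℕ) : ℝ))) • v
    have : max 0 (min t ((0 : ℕ) : ℝ)) = 0 := max_eq_left (by simp)
    rw [this, zero_smul, add_zero]
  | cons u θ ih =>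
    have e : Shape.plShift (u :: θ) v = (u + v) :: Shape.plShift θ v := rfl
    rw [e]
    show (max 0 (min t 1)) • (u + v) + Shape.val (Shape.plShift θ v) (t - 1)
      = (max 0 (min t 1)) • u + Shape.val θ (t - 1) + _
    have hl : (((u :: θ).length : ℕ) : ℝ) = (θ.length : ℝ) + 1 := by
      rw [List.length_cons]; push_cast; ring
    rw [ih, hl, ← pl_clamp_add t θ.length (Nat.cast_nonneg _)]
    module

theorem pl_shift_reg (θ : Shape n) (hθ : ∀ v ∈ θ, Dom v) (e : ℝ) (he : 0 < e) :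
    ∀ v ∈ θ.plShift (e • rhoV n), Ty.D.Reg v := by
  intro v hv
  obtain ⟨u, hu, rfl⟩ := List.mem_map.1 hv
  exact pl_dom_add_reg u _ (hθ u hu) ((pl_reg_smul_iff _ e he).2 pl_rho_reg)

end Shift

theorem pl_shift_pos (θ : Shape n) (e : ℝ) (S S' : SwState n) (hS : IsFrame S.frame)
    (hfr : S'.frame = S.frame) (t : ℝ) (h0 : 0 ≤ t) (h1 : t ≤ (θ.length : ℝ)) :
    S'.pos (θ.plShift (e • rhoV n)) t - S.pos θ t
      = S'.c - S.c + (t * e) • S.frame (rhoV n) := by
  show S'.c + S'.frame ((θ.plShift (e • rhoV n)).val t) - (S.c + S.frame (θ.val t)) = _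
  rw [pl_shift_val, hfr, min_eq_left h1, max_eq_right h0, (sc_isFrame_linear _ hS).map_add,
    (sc_isFrame_linear _ hS).map_smul, (sc_isFrame_linear _ hS).map_smul]
  module

theorem pl_shift_pos_sub (θ : Shape n) (e : ℝ) (S S' : SwState n) (hS : IsFrame S.frame)
    (hfr : S'.frame = S.frame) (a t : ℝ) (ha0 : 0 ≤ a) (hat : a ≤ t)
    (h1 : t ≤ (θ.length : ℝ)) :
    S'.pos (θ.plShift (e • rhoV n)) t - S.pos θ t
      = (S'.pos (θ.plShift (e • rhoV n)) a - S.pos θ a) + ((t - a) * e) • S.frame (rhoV n) := by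
  rw [pl_shift_pos θ e S S' hS hfr t (ha0.trans hat) h1,
    pl_shift_pos θ e S S' hS hfr a ha0 (hat.trans h1)]
  module

theorem pl_shift_gap_at (θ : Shape n) (e : ℝ) (he : 0 ≤ e) (a t : ℝ) (S S' : SwState n)
    (hS : IsFrame S.frame) (hfr : S'.frame = S.frame) (ha0 : 0 ≤ a) (hat : a ≤ t)
    (h1 : t ≤ (θ.length : ℝ))
    (hgap : ∀ β : RootD n, 0 < dot (rhoV n) β.vec →
      e * (2 * n) * (θ.length - a) ≤ dot (S'.pos (θ.plShift (e • rhoV n)) a - S.pos θ a) β.vec) :
    ∀ β : RootD n, 0 < dot (rhoV n) β.vec →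
      e * (2 * n) * (θ.length - t) ≤ dot (S'.pos (θ.plShift (e • rhoV n)) t - S.pos θ t) β.vec := by
  intro β hβ
  rw [pl_shift_pos_sub θ e S S' hS hfr a t ha0 hat h1, sc_dot_add_left, sc_dot_smul_left]
  have h2 := hgap β hβ
  have h3 := (abs_le.1 (pl_frame_rho_abs_le S.frame hS β)).1
  have h4 : 0 ≤ (t - a) * e := mul_nonneg (by linarith) he
  have h5 : (t - a) * e * (-(2 * n)) ≤ (t - a) * e * dot (S.frame (rhoV n)) β.vec :=
    mul_le_mul_of_nonneg_left h3 h4
  nlinarith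

theorem pl_shift_dom_at (θ : Shape n) (e : ℝ) (he : 0 ≤ e) (a t : ℝ) (S S' : SwState n)
    (hS : IsFrame S.frame) (hfr : S'.frame = S.frame) (ha0 : 0 ≤ a) (hat : a ≤ t)
    (h1 : t ≤ (θ.length : ℝ))
    (hgap : ∀ β : RootD n, 0 < dot (rhoV n) β.vec →
      e * (2 * n) * (θ.length - a) ≤ dot (S'.pos (θ.plShift (e • rhoV n)) a - S.pos θ a) β.vec)
    (hd : Dom (S.pos θ t)) : Dom (S'.pos (θ.plShift (e • rhoV n)) t) := by
  have h2 : Dom (S'.pos (θ.plShift (e • rhoV n)) t - S.pos θ t) := by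
    rw [pl_dom_iff]
    intro β hβ
    refine le_trans ?_ (pl_shift_gap_at θ e he a t S S' hS hfr ha0 hat h1 hgap β hβ)
    have : (0 : ℝ) ≤ n := Nat.cast_nonneg n
    have h3 : 0 ≤ (θ.length : ℝ) - t := by linarith
    positivity
  have := pl_dom_add _ _ hd h2
  rwa [add_sub_cancel] at this

/-- first induction of (K10').  `θ' = θ + e rho` per piece, `S'` has the frame of `S`, and at the starting time `a` the
difference of the positions pairs at least `e * 2n * (T - a)` with every positive root.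
PLAN: induction on `l`, generalising `a, S, S'`.  For `a ≤ t ≤ T` (and `0 ≤ a`):
`S'.pos θ' t - S.pos θ t = (S'.pos θ' a - S.pos θ a) + (e * (t - a)) • S.frame rho` (`pl_shift_val`, linearity), and
`|dot (S.frame rho) β.vec| ≤ 2n` (`pl_frame_rho_abs_le`), so the difference pairs `≥ e * 2n * (T - t) ≥ 0`
with positive roots, i.e. is dominant (`pl_dom_iff`); `pl_dom_add`.  At a switch the positions do not change
(`sc_pos_step`) and the new frames agree. -/
theorem pl_shift_inDom (θ : Shape n) (e : ℝ) (he : 0 ≤ e) (a : ℝ) (S S' : SwState n)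
    (l : List (ℝ × RootD n)) (hS : IsFrame S.frame) (hfr : S'.frame = S.frame) (ha0 : 0 ≤ a)
    (ht : ∀ p ∈ l, a ≤ p.1 ∧ p.1 ≤ (θ.length : ℝ)) (hs : l.Pairwise (fun p q => p.1 ≤ q.1))
    (hgap : ∀ β : RootD n, 0 < dot (rhoV n) β.vec →
      e * (2 * n) * (θ.length - a) ≤ dot (S'.pos (θ.plShift (e • rhoV n)) a - S.pos θ a) β.vec)
    (h : SwInDom Ty.D θ a S l) : SwInDom Ty.D (θ.plShift (e • rhoV n)) a S' l := by
  induction l generalizing a S S' with
  | nil =>
    intro t h1 h2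
    rw [pl_shift_length] at h2
    exact pl_shift_dom_at θ e he a t S S' hS hfr ha0 h1 h2 hgap (h t h1 h2)
  | cons p l ih =>
    obtain ⟨hpl, hs'⟩ := List.pairwise_cons.1 hs
    have hp := ht p List.mem_cons_self
    refine ⟨fun t h1 h2 => pl_shift_dom_at θ e he a t S S' hS hfr ha0 h1 (h2.trans hp.2) hgap
      (h.1 t h1 h2), ?_⟩
    refine ih p.1 (S.step θ p.1 p.2) (S'.step _ p.1 p.2) (sc_isFrame_refl S.frame hS p.2) ?_
      (ha0.trans hp.1) (fun q hq => ⟨hpl q hq, (ht q (List.mem_cons_of_mem _ hq)).2⟩) hs' ?_ h.2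
    · show (fun x => refl p.2 (S'.frame x)) = fun x => refl p.2 (S.frame x)
      rw [hfr]
    · rw [sc_pos_step, sc_pos_step]
      exact pl_shift_gap_at θ e he a p.1 S S' hS hfr ha0 hp.1 hp.2 hgap

theorem pl_shift_dist_at (θ : Shape n) (e : ℝ) (he : 0 ≤ e) (a t : ℝ) (S S' : SwState n)
    (hS : IsFrame S.frame) (hfr : S'.frame = S.frame) (ha0 : 0 ≤ a) (hat : a ≤ t)
    (h1 : t ≤ (θ.length : ℝ)) :
    dist (S'.pos (θ.plShift (e • rhoV n)) t) (S.pos θ t)
      ≤ dist (S'.pos (θ.plShift (e • rhoV n)) a) (S.pos θ a) + e * n * (t - a) := by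
  rw [dist_eq_norm, dist_eq_norm, pl_shift_pos_sub θ e S S' hS hfr a t ha0 hat h1]
  refine (norm_add_le _ _).trans (add_le_add le_rfl ?_)
  have h4 : 0 ≤ (t - a) * e := mul_nonneg (by linarith) he
  rw [norm_smul, pl_frame_norm _ hS, Real.norm_eq_abs, abs_of_nonneg h4]
  have := mul_le_mul_of_nonneg_left (pl_norm_rho_le (n := n)) h4
  linarith

/-- second induction of (K10'): the endpoints stay close (same computation, `pl_frame_norm`, `pl_norm_rho_le`). -/
theorem pl_shift_dist (θ : Shape n) (e : ℝ) (he : 0 ≤ e) (a : ℝ) (S S' : SwState n)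
    (l : List (ℝ × RootD n)) (hS : IsFrame S.frame) (hfr : S'.frame = S.frame) (ha0 : 0 ≤ a)
    (haT : a ≤ (θ.length : ℝ))
    (ht : ∀ p ∈ l, a ≤ p.1 ∧ p.1 ≤ (θ.length : ℝ)) (hs : l.Pairwise (fun p q => p.1 ≤ q.1)) :
    dist ((runSw (θ.plShift (e • rhoV n)) S' l).pos (θ.plShift (e • rhoV n)) θ.length)
        ((runSw θ S l).pos θ θ.length)
      ≤ dist (S'.pos (θ.plShift (e • rhoV n)) a) (S.pos θ a) + e * n * (θ.length - a) := by
  induction l generalizing a S S' with
  | nil => exact pl_shift_dist_at θ e he a _ S S' hS hfr ha0 haT le_rfl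
  | cons p l ih =>
    obtain ⟨hpl, hs'⟩ := List.pairwise_cons.1 hs
    have hp := ht p List.mem_cons_self
    have h1 := ih p.1 (S.step θ p.1 p.2) (S'.step (θ.plShift (e • rhoV n)) p.1 p.2)
      (sc_isFrame_refl S.frame hS p.2)
      (by show (fun x => refl p.2 (S'.frame x)) = fun x => refl p.2 (S.frame x)
          rw [hfr])
      (ha0.trans hp.1) hp.2 (fun q hq => ⟨hpl q hq, (ht q (List.mem_cons_of_mem _ hq)).2⟩) hs'
    rw [sc_pos_step, sc_pos_step] at h1
    have h2 := pl_shift_dist_at θ e he a p.1 S S' hS hfr ha0 hp.1 hp.2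
    show dist ((runSw _ (S'.step (θ.plShift (e • rhoV n)) p.1 p.2) l).pos _ _)
      ((runSw θ (S.step θ p.1 p.2) l).pos θ _) ≤ _
    nlinarith

/-- (K10').  PLAN: `T = θ.length`, `e = ε / (2 * (2 * n ^ 2 * T + n * T + 1))`, `θ' = θ.plShift (e • rho)`,
`lam' = lam + (e * (2 * n) * T) • rho`, same `w0`, `l`; `xi'` := the new endpoint.  `pl_shift_reg`, `pl_shift_sum`,
`pl_shift_length`, `pl_down_congr`, `pl_shift_inDom` at `a = 0` (`pl_pos_zero`, `pl_one_le_rho`), `pl_shift_dist`,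
`pl_norm_rho_le`. -/
theorem pl_decpath_regularize (lam xi : Vec n) (θ : Shape n) (hθ : ∀ v ∈ θ, Ty.D.Dom v)
    (h : HasDecPath Ty.D lam θ xi) (ε : ℝ) (hε : 0 < ε) :
    ∃ (lam' : Vec n) (θ' : Shape n) (xi' : Vec n), (∀ v ∈ θ', Ty.D.Reg v) ∧ dist lam' lam < ε ∧
      dist θ'.sum θ.sum < ε ∧ dist xi' xi < ε ∧ HasDecPath Ty.D lam' θ' xi' := by
  obtain ⟨w0, l, hd⟩ := h
  have hn0 : (0 : ℝ) ≤ n := Nat.cast_nonneg n
  have hT0 : (0 : ℝ) ≤ (θ.length : ℝ) := Nat.cast_nonneg _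
  obtain ⟨K, hK⟩ : ∃ K : ℝ, K = 2 * (2 * n ^ 2 * θ.length + n * θ.length + 1) := ⟨_, rfl⟩
  have hA : 0 ≤ 2 * (n : ℝ) ^ 2 * θ.length := by positivity
  have hB : 0 ≤ (n : ℝ) * θ.length := by positivity
  have hKpos : 0 < K := by rw [hK]; linarith
  obtain ⟨e, he'⟩ : ∃ e : ℝ, e = ε / K := ⟨_, rfl⟩
  have he : 0 < e := by rw [he']; exact div_pos hε hKpos
  have heK : e * K = ε := by rw [he']; exact div_mul_cancel₀ _ hKpos.ne'
  have small : ∀ X : ℝ, X ≤ 2 * (n : ℝ) ^ 2 * θ.length + n * θ.length → e * X < ε := by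
    intro X hX
    rw [← heK]
    exact mul_lt_mul_of_pos_left (by rw [hK]; linarith) he
  have hlam : dist (lam + (e * (2 * n) * θ.length) • rhoV n) lam
      ≤ e * (2 * (n : ℝ) ^ 2 * θ.length) := by
    rw [dist_eq_norm, add_sub_cancel_left, norm_smul, Real.norm_eq_abs,
      abs_of_nonneg (by positivity)]
    have := mul_le_mul_of_nonneg_left (pl_norm_rho_le (n := n))
      (show 0 ≤ e * (2 * n) * θ.length by positivity)
    nlinarith
  have hp0 : (⟨w0.act, lam + (e * (2 * n) * θ.length) • rhoV n⟩ : SwState n).pos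
      (θ.plShift (e • rhoV n)) 0 = lam + (e * (2 * n) * θ.length) • rhoV n := pl_pos_zero _ _ _
  have hp0' : (⟨w0.act, lam⟩ : SwState n).pos θ 0 = lam := pl_pos_zero _ _ _
  refine ⟨lam + (e * (2 * n) * θ.length) • rhoV n, θ.plShift (e • rhoV n),
    (runSw (θ.plShift (e • rhoV n)) ⟨w0.act, lam + (e * (2 * n) * θ.length) • rhoV n⟩ l).pos
      (θ.plShift (e • rhoV n)) (θ.plShift (e • rhoV n)).length,
    pl_shift_reg θ hθ e he, hlam.trans_lt (small _ (by linarith)), ?_, ?_, w0, l, trivial,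
    fun _ _ => trivial, ?_, hd.sorted,
    pl_down_congr θ _ ⟨w0.act, lam⟩ ⟨w0.act, lam + (e * (2 * n) * θ.length) • rhoV n⟩ rfl l l rfl
      hd.down, ?_, rfl⟩
  · rw [pl_shift_sum, dist_eq_norm, add_sub_cancel_left, norm_smul, norm_smul, Real.norm_eq_abs,
      Real.norm_eq_abs, abs_of_nonneg hT0, abs_of_nonneg he.le]
    have := mul_le_mul_of_nonneg_left (pl_norm_rho_le (n := n))
      (show 0 ≤ (θ.length : ℝ) * e by positivity)
    refine lt_of_le_of_lt ?_ (small ((n : ℝ) * θ.length) (by linarith))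
    nlinarith
  · rw [pl_shift_length, ← hd.endpoint]
    have h1 := pl_shift_dist θ e he.le 0 ⟨w0.act, lam⟩
      ⟨w0.act, lam + (e * (2 * n) * θ.length) • rhoV n⟩ l ⟨w0, rfl⟩ rfl le_rfl hT0 hd.times_mem
      hd.sorted
    rw [hp0, hp0'] at h1
    refine lt_of_le_of_lt h1 ?_
    have := small (2 * (n : ℝ) ^ 2 * θ.length + n * θ.length) le_rfl
    nlinarith
  · intro p hp
    rw [pl_shift_length]
    exact hd.times_mem p hp
  · refine pl_shift_inDom θ e he.le 0 ⟨w0.act, lam⟩ _ l ⟨w0, rfl⟩ rfl le_rfl hd.times_mem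
      hd.sorted ?_ hd.inDom
    intro β hβ
    rw [hp0, hp0', add_sub_cancel_left, sc_dot_smul_left, sub_zero]
    have h1 := pl_one_le_rho β hβ
    have h2 : 0 ≤ e * (2 * n) * θ.length := by positivity
    nlinarith

end Claimed.Agent.R282
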